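import Claimed.Agent.R286.Fs.Back
import Claimed.Agent.R286.Sc.Prof

/-!
# Row 286, scalar block, unit C3 (backward shapes) along a step profile      OWNER: helper100

`FsBI` (file `Fs/Back.lean`) for the continuation of a step profile with nondecreasing masses `≤ a` and terminal datum `a⁻¹ log cosh (a z)`:
* `fsb_V`  : `FsBI m (scV F_a π)` for every `m` below all the masses of `π` and below `a`;
* `fsb_Vt` : `FsBI (scAl π t) (scVt F_a π t)` at EVERY time `t` (consumer: C5a, helper265).
-/

set_option autoImplicit false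

namespace Claimed.Agent.R286

open Set

theorem fsb_V {a : ℝ} (ha : 0 < a) {π : List (ℝ × ℝ)} (hA : ScAdm a π) (hI : ScInc π) {m : ℝ}
    (hm : ∀ p ∈ π, m ≤ p.1) (hma : m ≤ a) :
    FsBI m (scV (fun z => a⁻¹ * Real.log (Real.cosh (a * z))) π) := by
  induction π generalizing m with
  | nil => exact fsb_term ha hma
  | cons p π ih =>
    have hA' : ScAdm a π := fun q hq => hA q (List.mem_cons_of_mem _ hq)
    have hp := hA p List.mem_cons_self
    have hI' := List.pairwise_cons.mp hI
    have h1 : FsBI p.1 (scV (fun z => a⁻¹ * Real.log (Real.cosh (a * z))) π) := ih hA' hI'.2 hI'.1 hp.2.1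
    exact fsb_mono (fsb_step hp.1 hp.2.2 h1) (hm p List.mem_cons_self)

theorem fsb_Vt {a : ℝ} (ha : 0 < a) {π : List (ℝ × ℝ)} (hA : ScAdm a π) (hI : ScInc π) (t : ℝ) :
    FsBI (scAl π t) (scVt (fun z => a⁻¹ * Real.log (Real.cosh (a * z))) π t) := by
  induction π generalizing t with
  | nil => exact fsb_term ha ha.le
  | cons p π ih =>
    have hA' : ScAdm a π := fun q hq => hA q (List.mem_cons_of_mem _ hq)
    have hp := hA p List.mem_cons_self
    have hI' := List.pairwise_cons.mp hI
    by_cases h : p.2 ≤ t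
    · simp only [scAl, scVt, if_pos h]
      exact ih hA' hI'.2 (t - p.2)
    · simp only [scAl, scVt, if_neg h]
      exact fsb_step hp.1 (by linarith [not_le.mp h]) (fsb_V ha hA' hI'.2 hI'.1 hp.2.1)

end Claimed.Agent.R286
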