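import Claimed.Agent.R286.Fs.Back
import Claimed.Agent.R286.Sc.GenDefs
import Claimed.Agent.R286.Sc.MaxP2

/-!
# Row 286, scalar block, unit C3 (forward shapes): the invariant `FsFI`      OWNER: helper104 (contract typed by the consumer helper265)

TEX[FS:shape:forward]   FS `signs.tex`, Lemma shape:forward, in DIVISION-FREE form, in the units of `Fs/Stat.lean` (`FssData`).
State at the time `t > 0`: `U = V(t,·)` (continuation), `ψ = ψ(t,·)` (forward factor: the law of `Z_t` is `p_t e^{m U - ψ}`).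
    `ψ_xx ≥ 0`;   on `x > 0`:   `ψ_xxx ≤ 0`,   `J = U_x (1/t + ψ_xx) - (x/t + ψ_x) U_xx ≥ 0`.
EXITS: `fsf_const` (first step: `ψ` constant), `fsf_jump` (`ψ₊ = ψ₋ + λ U`, `λ ≥ 0`), `fsf_step` (one step of mass `m > 0`),
       `fsf_step_gen` (the same at every time `t` of the step `[a, t1]`, mass `m ≥ 0`: `V(t) = scStep m (t1 - t) F`, `ψ(t) = fsfPsi a t ψ`).
Score `s = x/t + ψ_x`, `a = s_x`.   PDEs in the step (forward time):
    `u = a - 1/t`: `u_t = u_xx/2 - s u_x - (a + 1/t) u`;      `(s_xx)_t = (s_xx)_xx/2 - s (s_xx)_x - 3 a s_xx`;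
    `J_t = J_xx/2 - (v/r) J_x - (a + m v) J + [s Q / r - m r s w - r s s_xx]`,   `Q = r z - v w + 2 m r² w`   (`r, v, w, z = V_x .. V_xxxx`).
No tails, no quotients: bounded jets, `J` of linear growth, comparison with the barrier (`sc_mpg_line`, `sc_mpg_halfline` of `Sc/MaxP2`).
Part A: abstract jets `FsFJet`, sign theorems.   Part B: chain rule in two variables, scaled jets `fsfP`, the instance `fsf_jet`.
Part C: the step.   The end point `t = t1` of the step (no time derivative there) is reached by continuity.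
-/

set_option autoImplicit false

namespace Claimed.Agent.R286

open Filter Topology Set

/-- the forward invariant at the time `t` -/
structure FsFI (t : ℝ) (U ψ : ℝ → ℝ) : Prop where
  cls : ∀ n, ScB n ψ
  even : ∀ x, ψ (-x) = ψ x
  a_ge : ∀ x, 0 ≤ deriv^[2] ψ x
  b_le : ∀ x, 0 < x → deriv^[3] ψ x ≤ 0
  j_ge : ∀ x, 0 < x → 0 ≤ deriv^[1] U x * (1 / t + deriv^[2] ψ x) - (x / t + deriv^[1] ψ x) * deriv^[2] U x

/-- a chain of derivatives computes the iterated derivative -/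
theorem fsf_iter_eq {j : ℕ → ℝ → ℝ} (hj : ∀ k x, HasDerivAt (j k) (j (k + 1) x) x) (k : ℕ) : deriv^[k] (j 0) = j k := by
  induction k with
  | zero => rfl
  | succ k ih =>
    rw [Function.iterate_succ_apply', ih]
    exact funext fun x => (hj k x).deriv

theorem fsf_iter_const (c : ℝ) (k : ℕ) : deriv^[k + 1] (fun _ : ℝ => c) = fun _ => 0 := by
  have := fsf_iter_eq (j := fun k => if k = 0 then (fun _ : ℝ => c) else fun _ => 0) (fun k x => by
    by_cases h : k = 0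
    · subst h; simpa using hasDerivAt_const x c
    · simpa [h] using hasDerivAt_const x (0 : ℝ)) (k + 1)
  simpa using this

theorem fsf_iter_add_mul {ψ U : ℝ → ℝ} (hψ : ∀ n, ScB n ψ) (hU : ∀ n, ScB n U) (l : ℝ) (k : ℕ) :
    deriv^[k] (fun x => ψ x + l * U x) = fun x => deriv^[k] ψ x + l * deriv^[k] U x :=
  fsf_iter_eq (j := fun k x => deriv^[k] ψ x + l * deriv^[k] U x)
    (fun k x => (fsb_iter_hasDerivAt hψ k x).add ((fsb_iter_hasDerivAt hU k x).const_mul l)) k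

/-- `U' ≥ x U''` on `x > 0` (concavity of `U'`) -/
theorem FsBI.r_ge {m : ℝ} {F : ℝ → ℝ} (h : FsBI m F) {x : ℝ} (hx : 0 < x) : x * deriv^[2] F x ≤ deriv^[1] F x := by
  have h0 : deriv^[1] F 0 = 0 := by
    have := fsb_iter_par h.even 1 0
    simp only [neg_zero, pow_one] at this
    linarith
  have hd : ∀ y, HasDerivAt (fun y => deriv^[1] F y - y * deriv^[2] F y) (-(y * deriv^[3] F y)) y := fun y => by
    have := (fsb_iter_hasDerivAt h.cls 1 y).sub ((hasDerivAt_id y).mul (fsb_iter_hasDerivAt h.cls 2 y))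
    refine this.congr_deriv ?_
    simp
  have hmono : MonotoneOn (fun y => deriv^[1] F y - y * deriv^[2] F y) (Ici 0) := by
    refine monotoneOn_of_deriv_nonneg (convex_Ici 0) (fun y _ => (hd y).continuousAt.continuousWithinAt)
      (fun y _ => (hd y).differentiableAt.differentiableWithinAt) ?_
    intro y hy
    rw [interior_Ici] at hy
    rw [(hd y).deriv]
    have := h.w_le y hy
    have hy' : 0 < y := hy
    nlinarith
  have := hmono (mem_Ici.2 le_rfl) (mem_Ici.2 hx.le) hx.le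
  simp only [h0, zero_mul, sub_zero] at this
  linarith

/-- **first step** (and zero masses): a constant forward factor -/
theorem fsf_const {m t : ℝ} {F : ℝ → ℝ} (ht : 0 < t) (hF : FsBI m F) (c : ℝ) : FsFI t F (fun _ => c) := by
  refine ⟨fun n => ScB.const n c, fun _ => rfl, ?_, ?_, ?_⟩
  · intro x; rw [fsf_iter_const c 1]
  · intro x _; rw [fsf_iter_const c 2]
  · intro x hx
    rw [fsf_iter_const c 1, fsf_iter_const c 0]
    have h1 := hF.r_ge hx
    have e : deriv^[1] F x * (1 / t + 0) - (x / t + 0) * deriv^[2] F x = (deriv^[1] F x - x * deriv^[2] F x) / t := by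
      rw [add_zero, add_zero]
      field_simp
    simp only
    rw [e]
    exact div_nonneg (by linarith) ht.le

/-- **forward jump**: `ψ₊ = ψ₋ + λ U`, `λ ≥ 0` -/
theorem fsf_jump {m t l : ℝ} {U ψ : ℝ → ℝ} (hU : FsBI m U) (h : FsFI t U ψ) (hl : 0 ≤ l) :
    FsFI t U (fun x => ψ x + l * U x) := by
  have e := fsf_iter_add_mul h.cls hU.cls l
  refine ⟨fun n => (h.cls n).add ((hU.cls n).const_mul l), fun x => by rw [h.even, hU.even], ?_, ?_, ?_⟩
  · intro x
    rw [e 2]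
    have := h.a_ge x
    have := mul_nonneg hl (hU.v_pos x).le
    simp only
    linarith
  · intro x hx
    rw [e 3]
    have := h.b_le x hx
    have := mul_nonneg hl (neg_nonneg.2 (hU.w_le x hx))
    simp only
    linarith
  · intro x hx
    rw [e 2, e 1]
    refine (h.j_ge x hx).trans (le_of_eq ?_)
    simp only
    ring

/-! ## A. the abstract forward step -/

/-- abstract forward jet on `[t0,t1] × ℝ`, `0 < t0`, forward time `t`:
`s = -g_x/g` (`g_t = g_xx/2`), `a = s_x`, `s2, s3, s4` the next derivatives;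
`r = V_x, v, w, z` the jet of the continuation, `V_t = -(V_xx + m V_x²)/2`. -/
structure FsFJet (m t0 t1 C : ℝ) (r v w z s a s2 s3 s4 : ℝ → ℝ → ℝ) : Prop where
  t0pos : 0 < t0
  cr : ContinuousOn (fun p : ℝ × ℝ => r p.1 p.2) (Icc t0 t1 ×ˢ univ)
  cv : ContinuousOn (fun p : ℝ × ℝ => v p.1 p.2) (Icc t0 t1 ×ˢ univ)
  cs : ContinuousOn (fun p : ℝ × ℝ => s p.1 p.2) (Icc t0 t1 ×ˢ univ)
  ca : ContinuousOn (fun p : ℝ × ℝ => a p.1 p.2) (Icc t0 t1 ×ˢ univ)
  cs2 : ContinuousOn (fun p : ℝ × ℝ => s2 p.1 p.2) (Icc t0 t1 ×ˢ univ)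
  dr : ∀ t ∈ Ioc t0 t1, ∀ x : ℝ, HasDerivAt (fun y => r t y) (v t x) x
  dv : ∀ t ∈ Ioc t0 t1, ∀ x : ℝ, HasDerivAt (fun y => v t y) (w t x) x
  dw : ∀ t ∈ Ioc t0 t1, ∀ x : ℝ, HasDerivAt (fun y => w t y) (z t x) x
  ds : ∀ t ∈ Ioc t0 t1, ∀ x : ℝ, HasDerivAt (fun y => s t y) (a t x) x
  da : ∀ t ∈ Ioc t0 t1, ∀ x : ℝ, HasDerivAt (fun y => a t y) (s2 t x) x
  ds2 : ∀ t ∈ Ioc t0 t1, ∀ x : ℝ, HasDerivAt (fun y => s2 t y) (s3 t x) x
  ds3 : ∀ t ∈ Ioc t0 t1, ∀ x : ℝ, HasDerivAt (fun y => s3 t y) (s4 t x) x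
  tr : ∀ t ∈ Ioc t0 t1, ∀ x : ℝ, HasDerivWithinAt (fun q => r q x)
    (-(w t x / 2 + m * (r t x * v t x))) (Iic t) t
  tv : ∀ t ∈ Ioc t0 t1, ∀ x : ℝ, HasDerivWithinAt (fun q => v q x)
    (-(z t x / 2 + m * (v t x ^ 2 + r t x * w t x))) (Iic t) t
  ts : ∀ t ∈ Ioc t0 t1, ∀ x : ℝ, HasDerivWithinAt (fun q => s q x)
    (s2 t x / 2 - s t x * a t x) (Iic t) t
  ta : ∀ t ∈ Ioc t0 t1, ∀ x : ℝ, HasDerivWithinAt (fun q => a q x)
    (s3 t x / 2 - a t x ^ 2 - s t x * s2 t x) (Iic t) t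
  ts2 : ∀ t ∈ Ioc t0 t1, ∀ x : ℝ, HasDerivWithinAt (fun q => s2 q x)
    (s4 t x / 2 - 3 * a t x * s2 t x - s t x * s3 t x) (Iic t) t
  br : ∀ t ∈ Icc t0 t1, ∀ x : ℝ, |r t x| ≤ C
  bv : ∀ t ∈ Icc t0 t1, ∀ x : ℝ, |v t x| ≤ C
  bs : ∀ t ∈ Icc t0 t1, ∀ x : ℝ, |s t x| ≤ C * (1 + |x|)
  ba : ∀ t ∈ Icc t0 t1, ∀ x : ℝ, |a t x| ≤ C
  bs2 : ∀ t ∈ Icc t0 t1, ∀ x : ℝ, |s2 t x| ≤ C
  r0 : ∀ t ∈ Icc t0 t1, r t 0 = 0
  s0 : ∀ t ∈ Icc t0 t1, s t 0 = 0
  s20 : ∀ t ∈ Icc t0 t1, s2 t 0 = 0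

namespace FsFJet

variable {m t0 t1 C : ℝ} {r v w z s a s2 s3 s4 : ℝ → ℝ → ℝ}

theorem C_nonneg (h : FsFJet m t0 t1 C r v w z s a s2 s3 s4) {t : ℝ} (ht : t ∈ Icc t0 t1) : 0 ≤ C :=
  le_trans (abs_nonneg _) (h.br t ht 0)

theorem drift_le (h : FsFJet m t0 t1 C r v w z s a s2 s3 s4) {t : ℝ} (ht : t ∈ Ioc t0 t1) (x : ℝ) :
    -(s t x) * x ≤ 2 * C * (1 + x ^ 2) := by
  have ht' : t ∈ Icc t0 t1 := ⟨ht.1.le, ht.2⟩
  have h1 := h.bs t ht' x
  have hC := h.C_nonneg ht'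
  have h2 : -(s t x) * x ≤ |s t x| * |x| := by
    rw [← abs_mul]
    calc -(s t x) * x = -(s t x * x) := by ring
      _ ≤ |s t x * x| := neg_le_abs _
  have h3 : |s t x| * |x| ≤ C * (1 + |x|) * |x| := mul_le_mul_of_nonneg_right h1 (abs_nonneg x)
  have h4 : |x| ^ 2 = x ^ 2 := sq_abs x
  have h5 : (1 + |x|) * |x| ≤ 2 * (1 + x ^ 2) := by nlinarith [sq_nonneg (|x| - 1)]
  nlinarith

/-- `a ≥ 1/t` propagates. -/
theorem a_ge (h : FsFJet m t0 t1 C r v w z s a s2 s3 s4) (ia : ∀ x : ℝ, 1 / t0 ≤ a t0 x) :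
    ∀ t ∈ Icc t0 t1, ∀ x : ℝ, 1 / t ≤ a t x := by
  have hpos : ∀ t ∈ Icc t0 t1, 0 < t := fun t ht => lt_of_lt_of_le h.t0pos ht.1
  have key := sc_mpg_line (t0 := t0) (t1 := t1) (C := C) (A0 := 1 / 2) (B0 := 2 * C)
    (M0 := C + 1 / t0)
    (u := fun t x => a t x - 1 / t)
    (ut := fun t x => (s3 t x / 2 - a t x ^ 2 - s t x * s2 t x) - (-1 / t ^ 2))
    (ux := fun t x => s2 t x) (uxx := fun t x => s3 t x)
    (A := fun _ _ => 1 / 2) (B := fun t x => - s t x) (c := fun t x => -(a t x + 1 / t))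
    (by
      refine h.ca.sub ?_
      refine ContinuousOn.div continuousOn_const continuousOn_fst ?_
      intro p hp
      exact (hpos p.1 hp.1).ne')
    (fun t ht x => by
      have htp : t ≠ 0 := (hpos t ⟨ht.1.le, ht.2⟩).ne'
      have h1 : HasDerivAt (fun q : ℝ => 1 / q) (-1 / t ^ 2) t := by
        simpa [one_div, neg_div] using hasDerivAt_inv htp
      exact (h.ta t ht x).sub h1.hasDerivWithinAt)
    (fun t ht x => (h.da t ht x).sub_const _)
    (fun t ht x => h.ds2 t ht x)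
    (fun _ _ _ => by norm_num) (fun _ _ _ => le_refl _)
    (fun t ht x => h.drift_le ht x)
    (fun t ht x => by
      have ht' : t ∈ Icc t0 t1 := ⟨ht.1.le, ht.2⟩
      have h1 := (abs_le.mp (h.ba t ht' x)).1
      have h2 : 0 < 1 / t := one_div_pos.mpr (hpos t ht')
      linarith)
    (fun t ht x => by
      have htp : t ≠ 0 := (hpos t ⟨ht.1.le, ht.2⟩).ne'
      apply le_of_eq
      field_simp
      ring)
    (fun x => by have := ia x; linarith)
    (fun t ht x => by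
      have h1 := (abs_le.mp (h.ba t ht x)).1
      have h2 : 1 / t ≤ 1 / t0 := one_div_le_one_div_of_le h.t0pos ht.1
      have h3 : 0 ≤ (C + 1 / t0) * |x| :=
        mul_nonneg (add_nonneg (h.C_nonneg ht) (one_div_pos.mpr h.t0pos).le) (abs_nonneg x)
      nlinarith)
  intro t ht x
  have := key t ht x
  linarith

/-- `s_xx ≤ 0` on the half line propagates. -/
theorem s2_nonpos (h : FsFJet m t0 t1 C r v w z s a s2 s3 s4)
    (is2 : ∀ x, 0 < x → s2 t0 x ≤ 0) :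
    ∀ t ∈ Icc t0 t1, ∀ x, 0 < x → s2 t x ≤ 0 := by
  intro t ht x hx
  have h01 : t0 ∈ Icc t0 t1 := ⟨le_refl _, ht.1.trans ht.2⟩
  have key := sc_mpg_halfline (t0 := t0) (t1 := t1) (C := 3 * C) (A0 := 1 / 2) (B0 := 2 * C)
    (M0 := C)
    (u := fun t x => - s2 t x)
    (ut := fun t x => -(s4 t x / 2 - 3 * a t x * s2 t x - s t x * s3 t x))
    (ux := fun t x => - s3 t x) (uxx := fun t x => - s4 t x)
    (A := fun _ _ => 1 / 2) (B := fun t x => - s t x) (c := fun t x => -(3 * a t x))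
    (h.cs2.mono (prod_mono_right (subset_univ _))).neg
    (fun t ht x _ => (h.ts2 t ht x).neg)
    (fun t ht x _ => (h.ds2 t ht x).neg)
    (fun t ht x _ => (h.ds3 t ht x).neg)
    (fun _ _ _ _ => by norm_num) (fun _ _ _ _ => le_refl _)
    (fun t ht x _ => h.drift_le ht x)
    (fun t ht x _ => by
      have h1 := (abs_le.mp (h.ba t ⟨ht.1.le, ht.2⟩ x)).1
      linarith)
    (fun t ht x _ => by
      apply le_of_eq; ring)
    (fun x hx => by
      rcases eq_or_lt_of_le (show (0 : ℝ) ≤ x from hx) with h0 | h0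
      · rw [← h0, h.s20 t0 h01]; simp
      · have := is2 x h0; linarith)
    (fun t ht => by rw [h.s20 t ht]; simp)
    (fun t ht x hx => by
      have := (abs_le.mp (h.bs2 t ht x)).2
      have h3 : 0 ≤ C * x := mul_nonneg (h.C_nonneg ht) hx
      nlinarith)
  have := key t ht x hx.le
  linarith

theorem r_pos (h : FsFJet m t0 t1 C r v w z s a s2 s3 s4)
    (vpos : ∀ t ∈ Icc t0 t1, ∀ x, 0 < v t x) {t : ℝ} (ht : t ∈ Ioc t0 t1) {x : ℝ}
    (hx : x ∈ Ioi (0 : ℝ)) : 0 < r t x := by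
  have ht' : t ∈ Icc t0 t1 := ⟨ht.1.le, ht.2⟩
  have hm : StrictMonoOn (fun y => r t y) (Ici 0) := by
    apply strictMonoOn_of_deriv_pos (convex_Ici 0)
      (fun y _ => (h.dr t ht y).continuousAt.continuousWithinAt)
    intro y hy
    rw [(h.dr t ht y).deriv]
    exact vpos t ht' y
  have := hm (mem_Ici.mpr le_rfl) (Ioi_subset_Ici_self hx) hx
  simpa [h.r0 t ht'] using this

theorem s_nonneg (h : FsFJet m t0 t1 C r v w z s a s2 s3 s4)
    (apos : ∀ t ∈ Icc t0 t1, ∀ x : ℝ, 0 ≤ a t x) {t : ℝ} (ht : t ∈ Ioc t0 t1) {x : ℝ}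
    (hx : x ∈ Ioi (0 : ℝ)) : 0 ≤ s t x := by
  have ht' : t ∈ Icc t0 t1 := ⟨ht.1.le, ht.2⟩
  have hm : MonotoneOn (fun y => s t y) (Ici 0) := by
    apply monotoneOn_of_deriv_nonneg (convex_Ici 0)
      (fun y _ => (h.ds t ht y).continuousAt.continuousWithinAt)
      (fun y _ => (h.ds t ht y).differentiableAt.differentiableWithinAt)
    intro y _
    rw [(h.ds t ht y).deriv]
    exact apos t ht' y
  have := hm (mem_Ici.mpr le_rfl) (Ioi_subset_Ici_self hx) (le_of_lt hx)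
  simpa [h.s0 t ht'] using this

/-- `J = a r - s v ≥ 0` propagates, given the backward signs and the first two forward signs:
`J_t = J_xx/2 - (v/r) J_x - (a + m v) J + [s Q / r - m r s w - r s s_xx]`. -/
theorem J_nonneg (h : FsFJet m t0 t1 C r v w z s a s2 s3 s4) (hm : 0 ≤ m)
    (vpos : ∀ t ∈ Icc t0 t1, ∀ x, 0 < v t x)
    (hw : ∀ t ∈ Icc t0 t1, ∀ x, 0 < x → w t x ≤ 0)
    (hQ : ∀ t ∈ Icc t0 t1, ∀ x, 0 < x →
      0 ≤ r t x * z t x - v t x * w t x + 2 * m * (r t x ^ 2 * w t x))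
    (apos : ∀ t ∈ Icc t0 t1, ∀ x : ℝ, 0 ≤ a t x)
    (hs2 : ∀ t ∈ Icc t0 t1, ∀ x, 0 < x → s2 t x ≤ 0)
    (iJ : ∀ x, 0 < x → 0 ≤ a t0 x * r t0 x - s t0 x * v t0 x) :
    ∀ t ∈ Icc t0 t1, ∀ x, 0 < x → 0 ≤ a t x * r t x - s t x * v t x := by
  intro t ht x hx
  have h01 : t0 ∈ Icc t0 t1 := ⟨le_refl _, ht.1.trans ht.2⟩
  have hcJ : ContinuousOn (fun p : ℝ × ℝ => a p.1 p.2 * r p.1 p.2 - s p.1 p.2 * v p.1 p.2)
      (Icc t0 t1 ×ˢ univ) := (h.ca.mul h.cr).sub (h.cs.mul h.cv)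
  have hJ0 : ∀ t ∈ Icc t0 t1, a t 0 * r t 0 - s t 0 * v t 0 = 0 := by
    intro t ht; rw [h.r0 t ht, h.s0 t ht]; ring
  refine sc_mpg_halfline (t0 := t0) (t1 := t1) (C := 0) (A0 := 1 / 2) (B0 := 0)
    (M0 := 2 * (C * C))
    (u := fun t x => a t x * r t x - s t x * v t x)
    (ut := fun t x => ((s3 t x / 2 - a t x ^ 2 - s t x * s2 t x) * r t x
        + a t x * (-(w t x / 2 + m * (r t x * v t x))))
      - ((s2 t x / 2 - s t x * a t x) * v t x
        + s t x * (-(z t x / 2 + m * (v t x ^ 2 + r t x * w t x)))))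
    (ux := fun t x => (s2 t x * r t x + a t x * v t x) - (a t x * v t x + s t x * w t x))
    (uxx := fun t x => ((s3 t x * r t x + s2 t x * v t x) + (s2 t x * v t x + a t x * w t x))
      - ((s2 t x * v t x + a t x * w t x) + (a t x * w t x + s t x * z t x)))
    (A := fun _ _ => 1 / 2) (B := fun t x => - (v t x / r t x))
    (c := fun t x => -(a t x + m * v t x))
    (hcJ.mono (prod_mono_right (subset_univ _)))
    (fun t ht x _ => ((h.ta t ht x).mul (h.tr t ht x)).sub ((h.ts t ht x).mul (h.tv t ht x)))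
    (fun t ht x _ => ((h.da t ht x).mul (h.dr t ht x)).sub ((h.ds t ht x).mul (h.dv t ht x)))
    (fun t ht x _ =>
      (((h.ds2 t ht x).mul (h.dr t ht x)).add ((h.da t ht x).mul (h.dv t ht x))).sub
        (((h.da t ht x).mul (h.dv t ht x)).add ((h.ds t ht x).mul (h.dw t ht x))))
    (fun _ _ _ _ => by norm_num) (fun _ _ _ _ => le_refl _)
    (fun t ht x hx => by
      have h2 := h.r_pos vpos ht hx
      have h3 := vpos t ⟨ht.1.le, ht.2⟩ x
      have hx0 : (0 : ℝ) < x := hx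
      have h4 : 0 < v t x / r t x * x := by positivity
      linarith)
    (fun t ht x hx => by
      have h3 := vpos t ⟨ht.1.le, ht.2⟩ x
      have h4 := apos t ⟨ht.1.le, ht.2⟩ x
      have h5 : 0 ≤ m * v t x := mul_nonneg hm h3.le
      linarith)
    (fun t ht x hx => by
      have ht' : t ∈ Icc t0 t1 := ⟨ht.1.le, ht.2⟩
      have hx' : (0 : ℝ) < x := hx
      have h2 := h.r_pos vpos ht hx
      have h3 := h.s_nonneg apos ht hx
      have h4 := hw t ht' x hx'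
      have h5 := hQ t ht' x hx'
      have h6 := hs2 t ht' x hx'
      have e1 : 0 ≤ s t x * (r t x * z t x - v t x * w t x + 2 * m * (r t x ^ 2 * w t x)) / r t x := by
        positivity
      have e2 : 0 ≤ m * (r t x * s t x * (-(w t x))) := by
        have : 0 ≤ -(w t x) := by linarith
        positivity
      have e3 : 0 ≤ r t x * s t x * (-(s2 t x)) := by
        have : 0 ≤ -(s2 t x) := by linarith
        positivity
      refine le_trans (add_nonneg (add_nonneg e1 e2) e3) (le_of_eq ?_)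
      have hr : r t x ≠ 0 := h2.ne'
      field_simp
      ring)
    (fun x hx => by
      rcases eq_or_lt_of_le (show (0 : ℝ) ≤ x from hx) with h0 | h0
      · rw [← h0]; exact (hJ0 t0 h01).ge
      · exact iJ x h0)
    (fun t ht => (hJ0 t ht).ge)
    (fun t ht x hx => by
      have hx0 : (0 : ℝ) ≤ x := hx
      have h1 := h.br t ht x
      have h2 := h.bv t ht x
      have h3 := h.bs t ht x
      have h4 := h.ba t ht x
      have hC := h.C_nonneg ht
      rw [abs_of_nonneg hx0] at h3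
      have e1 : |a t x * r t x| ≤ C * C := by
        rw [abs_mul]; exact mul_le_mul h4 h1 (abs_nonneg _) hC
      have e2 : |s t x * v t x| ≤ C * (1 + x) * C := by
        rw [abs_mul]; exact mul_le_mul h3 h2 (abs_nonneg _) (by positivity)
      have f1 := (abs_le.mp e1).1
      have f2 := (abs_le.mp e2).2
      have f3 : 0 ≤ C * C * x := by positivity
      nlinarith) t ht x hx.le

/-- all three forward signs propagate through a step. -/
theorem signs (h : FsFJet m t0 t1 C r v w z s a s2 s3 s4) (hm : 0 ≤ m)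
    (vpos : ∀ t ∈ Icc t0 t1, ∀ x, 0 < v t x)
    (hw : ∀ t ∈ Icc t0 t1, ∀ x, 0 < x → w t x ≤ 0)
    (hQ : ∀ t ∈ Icc t0 t1, ∀ x, 0 < x →
      0 ≤ r t x * z t x - v t x * w t x + 2 * m * (r t x ^ 2 * w t x))
    (ia : ∀ x : ℝ, 1 / t0 ≤ a t0 x) (is2 : ∀ x, 0 < x → s2 t0 x ≤ 0)
    (iJ : ∀ x, 0 < x → 0 ≤ a t0 x * r t0 x - s t0 x * v t0 x) :
    ∀ t ∈ Icc t0 t1, (∀ x : ℝ, 1 / t ≤ a t x) ∧ ∀ x, 0 < x → s2 t x ≤ 0 ∧
      0 ≤ a t x * r t x - s t x * v t x := by
  have ha := h.a_ge ia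
  have apos : ∀ t ∈ Icc t0 t1, ∀ x : ℝ, 0 ≤ a t x := fun t ht x =>
    le_trans (one_div_pos.mpr (lt_of_lt_of_le h.t0pos ht.1)).le (ha t ht x)
  have hs2 := h.s2_nonpos is2
  exact fun t ht => ⟨ha t ht, fun x hx => ⟨hs2 t ht x hx, h.J_nonneg hm vpos hw hQ apos hs2 iJ t ht x hx⟩⟩

end FsFJet

/-! ## B. two-variable chain rule, scaled jets -/

/-- chain rule along a curve for a function of two variables with continuous partial derivatives -/
theorem fsf_chain2 {f f1 f2 : ℝ → ℝ → ℝ} {σ η : ℝ → ℝ} {t0 σ' η' : ℝ}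
    (hσ : HasDerivAt σ σ' t0) (hη : HasDerivAt η η' t0)
    (d1 : ∀ᶠ p : ℝ × ℝ in 𝓝 (σ t0, η t0), HasDerivAt (fun s => f s p.2) (f1 p.1 p.2) p.1)
    (d2 : ∀ᶠ p : ℝ × ℝ in 𝓝 (σ t0, η t0), HasDerivAt (fun y => f p.1 y) (f2 p.1 p.2) p.2)
    (c1 : ContinuousAt (fun p : ℝ × ℝ => f1 p.1 p.2) (σ t0, η t0))
    (c2 : ContinuousAt (fun p : ℝ × ℝ => f2 p.1 p.2) (σ t0, η t0)) :
    HasDerivAt (fun t => f (σ t) (η t)) (f1 (σ t0) (η t0) * σ' + f2 (σ t0) (η t0) * η') t0 := by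
  have hcs : Continuous (fun c : ℝ => ContinuousLinearMap.toSpanSingleton ℝ c) :=
    (ContinuousLinearMap.toSpanSingletonCLE (𝕜 := ℝ) (E := ℝ)).continuous
  have key := hasStrictFDerivAt_uncurry_coprod (𝕜 := ℝ) (u := (σ t0, η t0)) (f := f)
    (f₁ := fun s y => ContinuousLinearMap.toSpanSingleton ℝ (f1 s y))
    (f₂ := fun s y => ContinuousLinearMap.toSpanSingleton ℝ (f2 s y))
    (d1.mono fun p hp => hp.hasFDerivAt) (d2.mono fun p hp => hp.hasFDerivAt)
    (hcs.continuousAt.comp c1) (hcs.continuousAt.comp c2)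
  have h2 := key.hasFDerivAt.comp_hasDerivAt t0 (hσ.prodMk hη)
  have h3 : HasDerivAt (fun t => f (σ t) (η t))
      ((((↿fun s y => ContinuousLinearMap.toSpanSingleton ℝ (f1 s y)) (σ t0, η t0)).coprod
      ((↿fun s y => ContinuousLinearMap.toSpanSingleton ℝ (f2 s y)) (σ t0, η t0))) (σ', η')) t0 := h2
  refine h3.congr_deriv ?_
  simp [Function.HasUncurry.uncurry, mul_comm]

/-- iterated derivative of a rescaled function -/
theorem fsf_iter_scale (f : ℝ → ℝ) (c : ℝ) (k : ℕ) :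
    deriv^[k] (fun x => f (c * x)) = fun x => c ^ k * deriv^[k] f (c * x) := by
  induction k with
  | zero => simp
  | succ k ih =>
    rw [Function.iterate_succ_apply', ih]
    funext x
    rw [deriv_const_mul_field, deriv_comp_mul_left, Function.iterate_succ_apply', smul_eq_mul]
    ring

/-- the bounded class is stable under rescaling -/
theorem fsf_B_scale {n : ℕ} {f : ℝ → ℝ} (h : ScB n f) (c : ℝ) : ScB n (fun x => f (c * x)) := by
  induction n generalizing f with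
  | zero =>
    have h0 : Continuous f := h
    exact (h0.comp (continuous_const.mul continuous_id) : Continuous fun x => f (c * x))
  | succ n ih =>
    obtain ⟨hd, ⟨C, hC⟩, hn⟩ := h
    have hder : deriv (fun x => f (c * x)) = fun x => c * deriv f (c * x) := by
      funext x
      rw [deriv_comp_mul_left, smul_eq_mul]
    refine ⟨?_, ⟨|c| * C, fun x => ?_⟩, ?_⟩
    · exact hd.comp (differentiable_id.const_mul c)
    · rw [hder, abs_mul]
      exact mul_le_mul_of_nonneg_left (hC _) (abs_nonneg c)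
    · rw [hder]
      exact (ih hn).const_mul c

/-- variance of the Gaussian bridge from time `a` to time `t` -/
noncomputable def fsfSig (a t : ℝ) : ℝ := a * (t - a) / t

/-- the jets of `x ↦ G (fsfSig a t) (a / t * x)` -/
noncomputable def fsfP (a : ℝ) (L : ℕ → ℝ → ℝ → ℝ) (k : ℕ) (t x : ℝ) : ℝ :=
  (a / t) ^ k * L k (fsfSig a t) (a / t * x)

theorem fsf_sig_mem {a t : ℝ} (ha : 0 < a) (ht : a ≤ t) : fsfSig a t ∈ Icc 0 a := by
  have htp : 0 < t := lt_of_lt_of_le ha ht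
  constructor
  · exact div_nonneg (mul_nonneg ha.le (by linarith)) htp.le
  · unfold fsfSig
    rw [div_le_iff₀ htp]
    nlinarith

theorem fsf_sig_mem' {a t : ℝ} (ha : 0 < a) (ht : a < t) : fsfSig a t ∈ Ioo 0 a := by
  have htp : 0 < t := lt_trans ha ht
  constructor
  · exact div_pos (mul_pos ha (by linarith)) htp
  · unfold fsfSig
    rw [div_lt_iff₀ htp]
    nlinarith

theorem fsf_sig_self {a : ℝ} : fsfSig a a = 0 := by simp [fsfSig]

theorem fsf_lam_hasDerivAt (a : ℝ) {t : ℝ} (ht : t ≠ 0) : HasDerivAt (fun q : ℝ => a / q) (-a / t ^ 2) t := by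
  have := (hasDerivAt_inv ht).const_mul a
  refine (this.congr_deriv ?_).congr_of_eventuallyEq (Eventually.of_forall fun q => ?_)
  · ring
  · simp [div_eq_mul_inv]

theorem fsf_sig_hasDerivAt (a : ℝ) {t : ℝ} (ht : t ≠ 0) : HasDerivAt (fsfSig a) (a ^ 2 / t ^ 2) t := by
  have h1 : HasDerivAt (fun q : ℝ => a * (q - a)) a t := by
    simpa using ((hasDerivAt_id t).sub_const a).const_mul a
  have := h1.div (hasDerivAt_id t) ht
  refine this.congr_deriv ?_
  simp only [id]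
  field_simp
  ring

theorem fsf_lam_mem {a t : ℝ} (ha : 0 < a) (ht : a ≤ t) : 0 < a / t ∧ a / t ≤ 1 := by
  have htp : 0 < t := lt_of_lt_of_le ha ht
  exact ⟨div_pos ha htp, (div_le_one htp).mpr ht⟩

section scaled

variable {mm a : ℝ} {L : ℕ → ℝ → ℝ → ℝ}

theorem fsf_P_dx (h : FsJet mm a L) (ha : 0 < a) (k : ℕ) {t : ℝ} (ht : a ≤ t) (x : ℝ) :
    HasDerivAt (fun y => fsfP a L k t y) (fsfP a L (k + 1) t x) x := by
  have h1 := h.dx k (fsfSig a t) (fsf_sig_mem ha ht) (a / t * x)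
  have h2 : HasDerivAt (fun y : ℝ => a / t * y) (a / t) x := by
    simpa using (hasDerivAt_id x).const_mul (a / t)
  have h3 := (h1.comp x h2).const_mul ((a / t) ^ k)
  refine h3.congr_deriv ?_
  unfold fsfP
  ring

theorem fsf_P_cont (h : FsJet mm a L) (ha : 0 < a) (k : ℕ) (T : ℝ) :
    ContinuousOn (fun p : ℝ × ℝ => fsfP a L k p.1 p.2) (Icc a T ×ˢ univ) := by
  have hne : ∀ p ∈ (Icc a T ×ˢ (univ : Set ℝ)), p.1 ≠ 0 := fun p hp => (lt_of_lt_of_le ha hp.1.1).ne'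
  have hl : ContinuousOn (fun p : ℝ × ℝ => a / p.1) (Icc a T ×ˢ univ) :=
    continuousOn_const.div continuousOn_fst hne
  have hs : ContinuousOn (fun p : ℝ × ℝ => fsfSig a p.1) (Icc a T ×ˢ univ) :=
    (continuousOn_const.mul (continuousOn_fst.sub continuousOn_const)).div continuousOn_fst hne
  have hm : ContinuousOn (fun p : ℝ × ℝ => ((fsfSig a p.1, a / p.1 * p.2) : ℝ × ℝ)) (Icc a T ×ˢ univ) :=
    hs.prodMk (hl.mul continuousOn_snd)
  have hmaps : MapsTo (fun p : ℝ × ℝ => ((fsfSig a p.1, a / p.1 * p.2) : ℝ × ℝ)) (Icc a T ×ˢ univ)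
      (Icc 0 a ×ˢ univ) := fun p hp => ⟨fsf_sig_mem ha hp.1.1, mem_univ _⟩
  exact (hl.pow k).mul ((h.cont k).comp hm hmaps)

theorem fsf_P_bdd (h : FsJet mm a L) (ha : 0 < a) (k : ℕ) (hk : 1 ≤ k) :
    ∃ C : ℝ, ∀ t, a ≤ t → ∀ x, |fsfP a L k t x| ≤ C := by
  obtain ⟨C, hC⟩ := h.bdd k hk
  refine ⟨C, fun t ht x => ?_⟩
  obtain ⟨h1, h2⟩ := fsf_lam_mem ha ht
  have h3 := hC (fsfSig a t) (fsf_sig_mem ha ht) (a / t * x)
  unfold fsfP
  rw [abs_mul, abs_of_nonneg (pow_nonneg h1.le k)]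
  calc (a / t) ^ k * |L k (fsfSig a t) (a / t * x)| ≤ 1 * C :=
        mul_le_mul (pow_le_one₀ h1.le h2) h3 (abs_nonneg _) zero_le_one
    _ = C := one_mul C

theorem fsf_P_zero (h : FsJet mm a L) (ha : 0 < a) {k : ℕ} (hk : Odd k) {t : ℝ} (ht : a ≤ t) :
    fsfP a L k t 0 = 0 := by
  unfold fsfP
  rw [mul_zero, fsb_jet_odd_zero h hk (fsf_sig_mem ha ht), mul_zero]

/-- time derivative of a scaled jet -/
theorem fsf_P_dt (h : FsJet mm a L) (ha : 0 < a) (k : ℕ) {D : ℝ → ℝ → ℝ}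
    (hD : ∀ τ ∈ Ioc 0 a, ∀ x, HasDerivAt (fun s => L k s x) (D τ x) τ)
    (cD : ContinuousOn (fun p : ℝ × ℝ => D p.1 p.2) (Icc 0 a ×ˢ univ)) {t : ℝ} (ht : a < t) (x : ℝ) :
    HasDerivAt (fun q => fsfP a L k q x)
      ((k : ℝ) * (a / t) ^ (k - 1) * (-a / t ^ 2) * L k (fsfSig a t) (a / t * x)
        + (a / t) ^ k * (D (fsfSig a t) (a / t * x) * (a ^ 2 / t ^ 2)
          + L (k + 1) (fsfSig a t) (a / t * x) * (-a / t ^ 2 * x))) t := by
  have htne : t ≠ 0 := (lt_trans ha ht).ne'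
  have hσ := fsf_sig_mem' ha ht
  have hl := fsf_lam_hasDerivAt a htne
  have hnb : (Ioo 0 a ×ˢ (univ : Set ℝ)) ∈ 𝓝 ((fsfSig a t, a / t * x) : ℝ × ℝ) :=
    prod_mem_nhds (Ioo_mem_nhds hσ.1 hσ.2) univ_mem
  have hnb' : (Icc 0 a ×ˢ (univ : Set ℝ)) ∈ 𝓝 ((fsfSig a t, a / t * x) : ℝ × ℝ) :=
    prod_mem_nhds (Icc_mem_nhds hσ.1 hσ.2) univ_mem
  have hc := fsf_chain2 (f := L k) (f1 := D) (f2 := L (k + 1)) (σ := fsfSig a) (η := fun q => a / q * x)
    (t0 := t) (fsf_sig_hasDerivAt a htne) (hl.mul_const x)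
    (Filter.mem_of_superset hnb fun p hp => hD p.1 ⟨hp.1.1, hp.1.2.le⟩ p.2)
    (Filter.mem_of_superset hnb fun p hp => h.dx k p.1 ⟨hp.1.1.le, hp.1.2.le⟩ p.2)
    (cD.continuousAt hnb') ((h.cont (k + 1)).continuousAt hnb')
  exact (hl.pow k).mul hc

end scaled

section score

variable {a : ℝ} {L : ℕ → ℝ → ℝ → ℝ}

theorem fsf_s_dt (h : FsJet (-1) a L) (ha : 0 < a) {t : ℝ} (ht : a < t) (x : ℝ) :
    HasDerivAt (fun q => x / q + fsfP a L 1 q x)
      (fsfP a L 3 t x / 2 - (x / t + fsfP a L 1 t x) * (1 / t + fsfP a L 2 t x)) t := by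
  have htne : t ≠ 0 := (lt_trans ha ht).ne'
  have h1 := fsf_P_dt h ha 1 h.dt1
    (((h.cont 3).div_const 2).add (continuousOn_const.mul ((h.cont 1).mul (h.cont 2)))) ht x
  refine ((fsf_lam_hasDerivAt x htne).add h1).congr_deriv ?_
  unfold fsfP
  field_simp
  ring

theorem fsf_a_dt (h : FsJet (-1) a L) (ha : 0 < a) {t : ℝ} (ht : a < t) (x : ℝ) :
    HasDerivAt (fun q => 1 / q + fsfP a L 2 q x)
      (fsfP a L 4 t x / 2 - (1 / t + fsfP a L 2 t x) ^ 2 - (x / t + fsfP a L 1 t x) * fsfP a L 3 t x) t := by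
  have htne : t ≠ 0 := (lt_trans ha ht).ne'
  have h1 := fsf_P_dt h ha 2 h.dt2
    (((h.cont 4).div_const 2).add (continuousOn_const.mul (((h.cont 2).pow 2).add ((h.cont 1).mul (h.cont 3))))) ht x
  refine ((fsf_lam_hasDerivAt 1 htne).add h1).congr_deriv ?_
  unfold fsfP
  simp only [Nat.cast_ofNat, Nat.add_one_sub_one, pow_one]
  field_simp
  ring

theorem fsf_s2_dt (h : FsJet (-1) a L) (ha : 0 < a) {t : ℝ} (ht : a < t) (x : ℝ) :
    HasDerivAt (fun q => fsfP a L 3 q x)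
      (fsfP a L 5 t x / 2 - 3 * (1 / t + fsfP a L 2 t x) * fsfP a L 3 t x
        - (x / t + fsfP a L 1 t x) * fsfP a L 4 t x) t := by
  have htne : t ≠ 0 := (lt_trans ha ht).ne'
  have h1 := fsf_P_dt h ha 3 h.dt3
    (((h.cont 5).div_const 2).add (continuousOn_const.mul
      (((continuousOn_const.mul (h.cont 2)).mul (h.cont 3)).add ((h.cont 1).mul (h.cont 4))))) ht x
  refine h1.congr_deriv ?_
  unfold fsfP
  simp only [Nat.cast_ofNat, Nat.add_one_sub_one]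
  field_simp
  ring

end score

/-- time reversal of a backward jet -/
theorem fsf_rev_dt {f : ℝ → ℝ} {f' t1 t : ℝ} (h : HasDerivAt f f' (t1 - t)) :
    HasDerivAt (fun q => f (t1 - q)) (-f') t := by
  have h1 : HasDerivAt (fun q : ℝ => t1 - q) (-1) t := by
    simpa using (hasDerivAt_id t).const_sub t1
  have h2 : HasDerivAt (fun q => f (t1 - q)) (f' * -1) t := h.comp t h1
  exact h2.congr_deriv (by ring)

theorem fsf_rev_cont {m S t1 a T : ℝ} {LV : ℕ → ℝ → ℝ → ℝ} (hV : FsJet m S LV) (hS : t1 - a ≤ S) (hT : T ≤ t1)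
    (k : ℕ) : ContinuousOn (fun p : ℝ × ℝ => LV k (t1 - p.1) p.2) (Icc a T ×ˢ univ) := by
  have hm : ContinuousOn (fun p : ℝ × ℝ => ((t1 - p.1, p.2) : ℝ × ℝ)) (Icc a T ×ˢ univ) := by fun_prop
  have hmaps : MapsTo (fun p : ℝ × ℝ => ((t1 - p.1, p.2) : ℝ × ℝ)) (Icc a T ×ˢ univ) (Icc 0 S ×ˢ univ) :=
    fun p hp => ⟨⟨by linarith [hp.1.2], by linarith [hp.1.1]⟩, mem_univ _⟩
  exact (hV.cont k).comp hm hmaps

/-- **the instance of the abstract forward jet**: `V(t) = ` backward jet run from `t1`, score `x/t + ψ'`,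
`ψ(t, x) = G(fsfSig a t, a x / t)`, `G` a jet of mass `-1`. -/
theorem fsf_jet {m a T t1 : ℝ} {LV LP : ℕ → ℝ → ℝ → ℝ} (hV : FsJet m (t1 - a) LV) (hP : FsJet (-1) a LP)
    (ha : 0 < a) (hT : T < t1) :
    ∃ C, FsFJet m a T C (fun t x => LV 1 (t1 - t) x) (fun t x => LV 2 (t1 - t) x) (fun t x => LV 3 (t1 - t) x)
      (fun t x => LV 4 (t1 - t) x) (fun t x => x / t + fsfP a LP 1 t x) (fun t x => 1 / t + fsfP a LP 2 t x)
      (fsfP a LP 3) (fsfP a LP 4) (fsfP a LP 5) := by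
  obtain ⟨C1, hC1⟩ := hV.bdd 1 le_rfl
  obtain ⟨C2, hC2⟩ := hV.bdd 2 (by norm_num)
  obtain ⟨D1, hD1⟩ := fsf_P_bdd hP ha 1 le_rfl
  obtain ⟨D2, hD2⟩ := fsf_P_bdd hP ha 2 (by norm_num)
  obtain ⟨D3, hD3⟩ := fsf_P_bdd hP ha 3 (by norm_num)
  have hτ : ∀ t ∈ Icc a T, t1 - t ∈ Icc 0 (t1 - a) := fun t ht => ⟨by linarith [ht.2], by linarith [ht.1]⟩
  have hτ' : ∀ t ∈ Ioc a T, t1 - t ∈ Ioc 0 (t1 - a) := fun t ht => ⟨by linarith [ht.2], by linarith [ht.1]⟩
  have hne : ∀ p ∈ (Icc a T ×ˢ (univ : Set ℝ)), p.1 ≠ 0 := fun p hp => (lt_of_lt_of_le ha hp.1.1).ne'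
  have hinv : ∀ t ∈ Icc a T, 0 < 1 / t ∧ 1 / t ≤ 1 / a := fun t ht =>
    ⟨one_div_pos.mpr (lt_of_lt_of_le ha ht.1), one_div_le_one_div_of_le ha ht.1⟩
  refine ⟨|C1| + |C2| + |D1| + |D2| + |D3| + 1 / a, ?_⟩
  have hpa : 0 < 1 / a := one_div_pos.mpr ha
  constructor
  · exact ha
  · exact fsf_rev_cont hV le_rfl hT.le 1
  · exact fsf_rev_cont hV le_rfl hT.le 2
  · exact (continuousOn_snd.div continuousOn_fst hne).add (fsf_P_cont hP ha 1 T)
  · exact (continuousOn_const.div continuousOn_fst hne).add (fsf_P_cont hP ha 2 T)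
  · exact fsf_P_cont hP ha 3 T
  · exact fun t ht x => hV.dx 1 _ (hτ t (Ioc_subset_Icc_self ht)) x
  · exact fun t ht x => hV.dx 2 _ (hτ t (Ioc_subset_Icc_self ht)) x
  · exact fun t ht x => hV.dx 3 _ (hτ t (Ioc_subset_Icc_self ht)) x
  · exact fun t ht x => ((hasDerivAt_id x).div_const t).add (fsf_P_dx hP ha 1 ht.1.le x)
  · exact fun t ht x => (fsf_P_dx hP ha 2 ht.1.le x).const_add _
  · exact fun t ht x => fsf_P_dx hP ha 3 ht.1.le x
  · exact fun t ht x => fsf_P_dx hP ha 4 ht.1.le x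
  · exact fun t ht x => (fsf_rev_dt (hV.dt1 _ (hτ' t ht) x)).hasDerivWithinAt
  · exact fun t ht x => (fsf_rev_dt (hV.dt2 _ (hτ' t ht) x)).hasDerivWithinAt
  · exact fun t ht x => (fsf_s_dt hP ha ht.1 x).hasDerivWithinAt
  · exact fun t ht x => (fsf_a_dt hP ha ht.1 x).hasDerivWithinAt
  · exact fun t ht x => (fsf_s2_dt hP ha ht.1 x).hasDerivWithinAt
  · intro t ht x
    have := hC1 _ (hτ t ht) x
    have e1 := le_abs_self C1
    have := abs_nonneg C2; have := abs_nonneg D1; have := abs_nonneg D2; have := abs_nonneg D3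
    linarith
  · intro t ht x
    have := hC2 _ (hτ t ht) x
    have e1 := le_abs_self C2
    have := abs_nonneg C1; have := abs_nonneg D1; have := abs_nonneg D2; have := abs_nonneg D3
    linarith
  · intro t ht x
    have h1 := hD1 t ht.1 x
    have e1 := le_abs_self D1
    have h2 : |x / t| ≤ 1 / a * |x| := by
      rw [abs_div, abs_of_pos (lt_of_lt_of_le ha ht.1), div_eq_mul_one_div, mul_comm]
      exact mul_le_mul_of_nonneg_right (hinv t ht).2 (abs_nonneg x)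
    have h3 := abs_add_le (x / t) (fsfP a LP 1 t x)
    have n1 := abs_nonneg C1; have n2 := abs_nonneg C2; have n3 := abs_nonneg D1
    have n4 := abs_nonneg D2; have n5 := abs_nonneg D3; have n6 := abs_nonneg x
    have h4 : 0 ≤ (|C1| + |C2| + |D1| + |D2| + |D3|) * |x| := by positivity
    nlinarith
  · intro t ht x
    have h1 := hD2 t ht.1 x
    have e1 := le_abs_self D2
    have h2 : |1 / t| ≤ 1 / a := by rw [abs_of_pos (hinv t ht).1]; exact (hinv t ht).2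
    have h3 := abs_add_le (1 / t) (fsfP a LP 2 t x)
    have := abs_nonneg C1; have := abs_nonneg C2; have := abs_nonneg D1; have := abs_nonneg D3
    linarith
  · intro t ht x
    have := hD3 t ht.1 x
    have e1 := le_abs_self D3
    have := abs_nonneg C1; have := abs_nonneg C2; have := abs_nonneg D1; have := abs_nonneg D2
    linarith
  · exact fun t ht => fsb_jet_odd_zero hV (by decide) (hτ t ht)
  · intro t ht
    rw [fsf_P_zero hP ha (by decide) ht.1]; simp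
  · exact fun t ht => fsf_P_zero hP ha (by decide) ht.1

/-! ## C. the step -/

/-- the forward factor at time `t ≥ a`, started from `ψ` at time `a` (heat flow of `p_a e^{-ψ}`, Gaussian bridge):
`e^{-ψ_t(x)} = scHeat (a (t-a)/t) (e^{-ψ}) (a x / t)`. -/
noncomputable def fsfPsi (a t : ℝ) (ψ : ℝ → ℝ) (x : ℝ) : ℝ := scStep (-1) (fsfSig a t) ψ (a / t * x)

theorem fsf_psi_self {a : ℝ} (ha : a ≠ 0) (ψ : ℝ → ℝ) : fsfPsi a a ψ = ψ := by
  funext x
  simp [fsfPsi, fsf_sig_self, sc_step_var_zero, div_self ha]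

theorem fsf_psi_iter (a t : ℝ) (ψ : ℝ → ℝ) (k : ℕ) (x : ℝ) :
    deriv^[k] (fsfPsi a t ψ) x = fsfP a (fun k τ y => deriv^[k] (scStep (-1) τ ψ) y) k t x := by
  have e : fsfPsi a t ψ = fun x => scStep (-1) (fsfSig a t) ψ (a / t * x) := rfl
  rw [e, fsf_iter_scale]
  rfl

theorem fsf_P_init {a : ℝ} (ha : a ≠ 0) (ψ : ℝ → ℝ) (k : ℕ) (x : ℝ) :
    fsfP a (fun k τ y => deriv^[k] (scStep (-1) τ ψ) y) k a x = deriv^[k] ψ x := by
  rw [← fsf_psi_iter, fsf_psi_self ha]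

theorem fsf_limit {Φ : ℝ → ℝ} {a b : ℝ} (hab : a < b) (hc : ContinuousOn Φ (Icc a b))
    (h : ∀ t ∈ Ico a b, 0 ≤ Φ t) : 0 ≤ Φ b := by
  have h1 : Tendsto Φ (𝓝[Ico a b] b) (𝓝 (Φ b)) :=
    (hc b (right_mem_Icc.mpr hab.le)).mono_left (nhdsWithin_mono b Ico_subset_Icc_self)
  have hne : (𝓝[Ico a b] b).NeBot := by
    rw [← mem_closure_iff_nhdsWithin_neBot, closure_Ico hab.ne]
    exact right_mem_Icc.mpr hab.le
  exact ge_of_tendsto h1 (Filter.mem_of_superset self_mem_nhdsWithin h)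

theorem fsf_slice {g : ℝ → ℝ → ℝ} {s : Set ℝ} (h : ContinuousOn (fun p : ℝ × ℝ => g p.1 p.2) (s ×ˢ univ)) (x : ℝ) :
    ContinuousOn (fun t => g t x) s := by
  have hm : ContinuousOn (fun t : ℝ => ((t, x) : ℝ × ℝ)) s := by fun_prop
  exact h.comp hm (fun t ht => ⟨ht, mem_univ _⟩)

/-- **one step** of mass `m` on `[a, t1]`, `0 < a`: `V(t) = scStep m (t1 - t) F`, `ψ(t) = fsfPsi a t ψ`. -/
theorem fsf_step_gen {m a t t1 : ℝ} {F ψ : ℝ → ℝ} (hm : 0 ≤ m) (ha : 0 < a) (hat : a ≤ t) (ht1 : t ≤ t1)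
    (hB : FsBI m F) (hF : FsFI a (scStep m (t1 - a) F) ψ) :
    FsFI t (scStep m (t1 - t) F) (fsfPsi a t ψ) := by
  rcases eq_or_lt_of_le hat with rfl | hat'
  · rw [fsf_psi_self ha.ne']; exact hF
  have hV := fsb_jet hB.cls hB.even m (t1 - a)
  have hP := fsb_jet hF.cls hF.even (-1) a
  -- the signs before the end of the step
  have main : ∀ T, a ≤ T → T < t1 →
      (∀ x, 0 ≤ fsfP a (fun k τ y => deriv^[k] (scStep (-1) τ ψ) y) 2 T x) ∧
      ∀ x, 0 < x → fsfP a (fun k τ y => deriv^[k] (scStep (-1) τ ψ) y) 3 T x ≤ 0 ∧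
        0 ≤ (1 / T + fsfP a (fun k τ y => deriv^[k] (scStep (-1) τ ψ) y) 2 T x) * deriv^[1] (scStep m (t1 - T) F) x
          - (x / T + fsfP a (fun k τ y => deriv^[k] (scStep (-1) τ ψ) y) 1 T x)
            * deriv^[2] (scStep m (t1 - T) F) x := by
    intro T haT hT
    obtain ⟨C, hJ⟩ := fsf_jet hV hP ha hT
    have hBI : ∀ q ∈ Icc a T, FsBI m (scStep m (t1 - q) F) := fun q hq =>
      fsb_step hm (by linarith [hq.2]) hB
    have key := hJ.signs hm (fun q hq x => (hBI q hq).v_pos x) (fun q hq x hx => (hBI q hq).w_le x hx)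
      (fun q hq x hx => (hBI q hq).q_ge x hx)
      (fun x => by
        have := hF.a_ge x
        simp only [fsf_P_init ha.ne']
        linarith)
      (fun x hx => by
        simp only [fsf_P_init ha.ne']
        exact hF.b_le x hx)
      (fun x hx => by
        simp only [fsf_P_init ha.ne']
        refine (hF.j_ge x hx).trans (le_of_eq ?_)
        ring)
      T ⟨haT, le_refl _⟩
    refine ⟨fun x => ?_, key.2⟩
    have := key.1 x
    linarith
  -- the signs up to the end of the step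
  have hcP : ∀ k, ContinuousOn (fun p : ℝ × ℝ => fsfP a (fun k τ y => deriv^[k] (scStep (-1) τ ψ) y) k p.1 p.2)
      (Icc a t1 ×ˢ univ) := fun k => fsf_P_cont hP ha k t1
  have hcV : ∀ k, ContinuousOn (fun p : ℝ × ℝ => deriv^[k] (scStep m (t1 - p.1) F) p.2) (Icc a t1 ×ˢ univ) :=
    fun k => fsf_rev_cont hV le_rfl le_rfl k
  have hne : ∀ q ∈ Icc a t1, q ≠ 0 := fun q hq => (lt_of_lt_of_le ha hq.1).ne'
  have full : (∀ x, 0 ≤ fsfP a (fun k τ y => deriv^[k] (scStep (-1) τ ψ) y) 2 t x) ∧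
      ∀ x, 0 < x → fsfP a (fun k τ y => deriv^[k] (scStep (-1) τ ψ) y) 3 t x ≤ 0 ∧
        0 ≤ (1 / t + fsfP a (fun k τ y => deriv^[k] (scStep (-1) τ ψ) y) 2 t x) * deriv^[1] (scStep m (t1 - t) F) x
          - (x / t + fsfP a (fun k τ y => deriv^[k] (scStep (-1) τ ψ) y) 1 t x)
            * deriv^[2] (scStep m (t1 - t) F) x := by
    rcases eq_or_lt_of_le ht1 with rfl | ht1'
    · refine ⟨fun x => ?_, fun x hx => ⟨?_, ?_⟩⟩
      · exact fsf_limit hat' (Φ := fun q => fsfP a (fun k τ y => deriv^[k] (scStep (-1) τ ψ) y) 2 q x)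
          (fsf_slice (hcP 2) x) (fun q hq => (main q hq.1 hq.2).1 x)
      · have := fsf_limit hat' (Φ := fun q => - fsfP a (fun k τ y => deriv^[k] (scStep (-1) τ ψ) y) 3 q x)
          (fsf_slice (hcP 3) x).neg (fun q hq => neg_nonneg.mpr ((main q hq.1 hq.2).2 x hx).1)
        linarith
      · refine fsf_limit hat' (Φ := fun q => (1 / q + fsfP a (fun k τ y => deriv^[k] (scStep (-1) τ ψ) y) 2 q x)
            * deriv^[1] (scStep m (t - q) F) x
          - (x / q + fsfP a (fun k τ y => deriv^[k] (scStep (-1) τ ψ) y) 1 q x)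
            * deriv^[2] (scStep m (t - q) F) x) ?_ (fun q hq => ((main q hq.1 hq.2).2 x hx).2)
        exact ((((continuousOn_const.div continuousOn_id hne).add (fsf_slice (hcP 2) x)).mul
          (fsf_slice (hcV 1) x)).sub
          (((continuousOn_const.div continuousOn_id hne).add (fsf_slice (hcP 1) x)).mul
          (fsf_slice (hcV 2) x)))
    · exact main t hat ht1'
  refine ⟨fun n => fsf_B_scale (fsb_step_cls hF.cls (-1) _ n) _, fun x => ?_, fun x => ?_, fun x hx => ?_,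
    fun x hx => ?_⟩
  · unfold fsfPsi
    rw [mul_neg, sc_step_even hF.even]
  · rw [fsf_psi_iter]; exact full.1 x
  · rw [fsf_psi_iter]; exact (full.2 x hx).1
  · rw [fsf_psi_iter, fsf_psi_iter]
    refine (full.2 x hx).2.trans (le_of_eq ?_)
    ring

theorem fsf_fw_eq (a h : ℝ) (ψ : ℝ → ℝ) : scFw a h ψ = fsfPsi a (a + h) ψ := by
  funext x
  have e : fsfSig a (a + h) = a * h / (a + h) := by
    unfold fsfSig
    rw [add_sub_cancel_left]
  have hne : (-1 : ℝ) ≠ 0 := by norm_num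
  unfold scFw fsfPsi scStep scW
  rw [e, if_neg hne]
  simp only [neg_mul, one_mul]
  norm_num

/-- **one step of mass `m > 0`**, from the time `a > 0` to the time `a + h` -/
theorem fsf_step {a h m : ℝ} {F ψ : ℝ → ℝ} (ha : 0 < a) (hh : 0 ≤ h) (hm : 0 < m) (hF : FsBI m F)
    (hψ : FsFI a (scStep m h F) ψ) : FsFI (a + h) F (scFw a h ψ) := by
  have key := fsf_step_gen (t := a + h) (t1 := a + h) hm.le ha (by linarith) le_rfl hF
    (by rw [add_sub_cancel_left]; exact hψ)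
  rw [sub_self, sc_step_var_zero] at key
  rw [fsf_fw_eq]
  exact key

end Claimed.Agent.R286
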