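import Claimed.Agent.R286.Fs.FwStep

/-!
# Row 286, BOX-C, A6: the law of `Z_t` has the density `scWt F π t` with respect to `N(0,t)`      (OWNER helper230)

`sc_ex_eq_wt :  scEx F π t φ = scHeat t (fun x => φ x * scWt F π t x) 0`   for `0 ≤ t ≤ scLen π`.
(For `t > scLen π` the process of `Sc/Prof.lean` is frozen, so the identity is false there.)
-/

set_option autoImplicit false

namespace Claimed.Agent.R286

open MeasureTheory ProbabilityTheory Filter Topology Set

/-- `sc_fw_tr` without the restriction `0 < a + h` -/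
theorem sc_fw_tr' {F ψ φ : ℝ → ℝ} (hF : ScB 1 F) (hψ : ScB 1 ψ) (hφ : ScE 0 φ) (m : ℝ) {a h : ℝ} (ha : 0 ≤ a) (hh : 0 ≤ h) :
    scHeat a (fun x => scTr m h F φ x * Real.exp (m * scStep m h F x - ψ x)) 0
      = scHeat (a + h) (fun s => φ s * Real.exp (m * F s - scFw a h ψ s)) 0 := by
  rcases (add_nonneg ha hh).eq_or_lt with h0 | h0
  · have ha0 : a = 0 := by linarith
    have hh0 : h = 0 := by linarith
    subst ha0 hh0
    rw [add_zero, sc_heat_zero, sc_heat_zero, sc_tr_var_zero, sc_step_var_zero, sc_fw_first]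
  · exact sc_fw_tr hF hψ hφ m ha hh h0

/-- the induction over the profile: `a` = elapsed time, `mp` = previous mass, `ψ` = forward factor before the jump -/
theorem sc_law_aux {F : ℝ → ℝ} (hF : ScBI F) : ∀ (π : List (ℝ × ℝ)), ScPos π → ∀ (a mp : ℝ) (ψ φ : ℝ → ℝ) (t : ℝ),
    0 ≤ a → ScB 1 ψ → ScE 0 φ → 0 ≤ t → t ≤ scLen π →
    scHeat a (fun x => scPt F π 0 t φ x * Real.exp (mp * scV F π x - ψ x)) 0
      = scHeat (a + t) (fun x => φ x * Real.exp (scAl π t * scVt F π t x - scPsiAux F π a mp ψ t x)) 0 := by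
  intro π
  induction π with
  | nil =>
    intro _ a mp ψ φ t _ _ _ h0 ht
    have : t = 0 := le_antisymm ht h0
    subst this
    simp only [scPt, scV, scAl, scVt, scPsiAux, add_zero]
    congr 1
    funext x
    congr 2
    ring
  | cons p π ih =>
    intro hπ a mp ψ φ t ha hψ hφ h0 ht
    have hℓ : 0 ≤ p.2 := hπ p (List.mem_cons_self ..)
    have hW : ScB 1 (scV F π) := sc_V_BI hF π 1
    have hψ' : ScB 1 (fun y => ψ y + (p.1 - mp) * scV F (p :: π) y) :=
      hψ.add ((sc_V_BI hF (p :: π) 1).const_mul _)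
    have eV : scV F (p :: π) = scStep p.1 p.2 (scV F π) := rfl
    have key : ∀ G : ℝ → ℝ, (fun x => G x * Real.exp (mp * scV F (p :: π) x - ψ x))
        = fun x => G x * Real.exp (p.1 * scV F (p :: π) x - (ψ x + (p.1 - mp) * scV F (p :: π) x)) := by
      intro G
      funext x
      congr 2
      ring
    rw [key]
    by_cases hlt : p.2 ≤ t
    · have ePt : scPt F (p :: π) 0 t φ = scTr p.1 p.2 (scV F π) (scPt F π 0 (t - p.2) φ) := by
        rcases hℓ.eq_or_lt with h1 | h1
        · rw [sc_pt_cons_shift (by rw [← h1]) t φ, ← h1, sub_zero, sub_zero, sc_tr_var_zero]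
        · rw [sc_pt_cons_right h1 hlt φ, sub_zero]
      have e1 := sc_fw_tr' hW hψ' (sc_Pt_E hF hφ π 0 (t - p.2)) p.1 ha hℓ
      have e2 := ih hπ.of_cons (a + p.2) p.1 (scFw a p.2 fun y => ψ y + (p.1 - mp) * scV F (p :: π) y) φ (t - p.2)
        (by linarith) (sc_fw_B hψ' a p.2) hφ (by linarith) (by simp only [scLen] at ht; linarith)
      rw [ePt]
      simp only [scAl, scVt, scPsiAux, if_pos hlt]
      have e3 : a + p.2 + (t - p.2) = a + t := by ring
      rw [e3] at e2
      rw [← e2, ← e1]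
      rfl
    · push Not at hlt
      have hpos : 0 < p.2 := lt_of_le_of_lt h0 hlt
      have hG : ScB 1 (scStep p.1 (p.2 - t) (scV F π)) := sc_step_B hW p.1 _
      have e1 := sc_fw_tr' hG hψ' hφ p.1 ha h0
      rw [sc_step_step hW p.1 h0 (by linarith : 0 ≤ p.2 - t)] at e1
      have e3 : t + (p.2 - t) = p.2 := by ring
      rw [e3] at e1
      rw [sc_pt_cons_left hpos hlt.le φ, sub_zero]
      simp only [scAl, scVt, scPsiAux, if_neg (not_le.2 hlt)]
      exact e1

/-- **A6.**  The law of `Z_t` is `scWt F π t · N(0,t)`. -/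
theorem sc_ex_eq_wt {F : ℝ → ℝ} (hF : ScBI F) {π : List (ℝ × ℝ)} (hπ : ScPos π) {φ : ℝ → ℝ} (hφ : ScE 0 φ) {t : ℝ}
    (h0 : 0 ≤ t) (ht : t ≤ scLen π) : scEx F π t φ = scHeat t (fun x => φ x * scWt F π t x) 0 := by
  have h := sc_law_aux hF π hπ 0 0 (fun _ => 0) φ t le_rfl (ScB.const 1 0) hφ h0 ht
  rw [sc_heat_zero, zero_add] at h
  simp only [zero_mul, sub_zero, Real.exp_zero, mul_one] at h
  exact h

end Claimed.Agent.R286
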