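import Claimed.Agent.R286.Fs.Cert
import Claimed.Agent.R286.Sc.Cls

/-!
# Row 286 (S0533), BOX-C, unit C4: THE STATIC CERTIFICATE      (HEAD helper265; chief helper183; prefix `fss`)

ONE fixed time `t > 0` (variance time), ONE mass `m > 0`.   `V` = the value function at that time (`V1 .. V4` its derivatives), `ψ` = the forward factor (`g = p_t e^(-ψ)`, `ψ1 .. ψ3` its derivatives).
`r = m V1`, `v = m V2`, `w = m V3`, `z = m V4`, `s = x / t + ψ1`, `a = 1 / t + ψ2`, `s_xx = ψ3`, `f = e^(-x²/2t) e^(m V - ψ)`.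
* `FssData t m V V1 V2 V3 V4 ψ ψ1 ψ2 ψ3`   the hypotheses: derivative chains, BOUNDED jets, evenness, `V2 > 0`, and on `x > 0` the signs (division free, in `V`-units)
      `Y = V3 + 2 m V1 V2 ≤ 0`,  `Q = V1 V4 - V2 V3 + 2 m V1² V3 ≥ 0`,  `J = V1 (1/t + ψ2) - (x/t + ψ1) V2 ≥ 0`,  `ψ2 ≥ 0`,  `ψ3 ≤ 0`.
* `fss_static`   **EXIT**:  `(m²/1000) scHeat t (V2⁴ e^(mV-ψ)) 0 ≤ scHeat t ((V4² - 12 m V2 V3² + 6 m² V2⁴) e^(mV-ψ)) 0`.
No tails, no smooth extension of quotients: `r ≥ c₀ min(x,1)`, `|w| ≤ C min(x,1)`, `s ≤ C x`; all certificate variables are `O(1+x)` on `x > 0`.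
-/

set_option autoImplicit false

namespace Claimed.Agent.R286

open MeasureTheory ProbabilityTheory Set Filter Topology

/-! ## A. small lemmas -/

theorem fss_abs_le_mul {g g' : ℝ → ℝ} {C : ℝ} (h0 : g 0 = 0) (hg : ∀ x, HasDerivAt g (g' x) x) (hC : ∀ x, |g' x| ≤ C) (x : ℝ) :
    |g x| ≤ C * |x| := by
  have := Convex.norm_image_sub_le_of_norm_hasDerivWithin_le (f := g) (f' := g') (s := univ) (C := C) (x := 0) (y := x)
    (fun y _ => (hg y).hasDerivWithinAt) (fun y _ => by rw [Real.norm_eq_abs]; exact hC y) convex_univ (mem_univ _) (mem_univ _)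
  simpa [h0, Real.norm_eq_abs] using this

theorem fss_abs_sub_le_mul {g g' : ℝ → ℝ} {C : ℝ} (hg : ∀ x, HasDerivAt g (g' x) x) (hC : ∀ x, |g' x| ≤ C) (x : ℝ) :
    |g x - g 0| ≤ C * |x| := by
  have := Convex.norm_image_sub_le_of_norm_hasDerivWithin_le (f := g) (f' := g') (s := univ) (C := C) (x := 0) (y := x)
    (fun y _ => (hg y).hasDerivWithinAt) (fun y _ => by rw [Real.norm_eq_abs]; exact hC y) convex_univ (mem_univ _) (mem_univ _)
  simpa [Real.norm_eq_abs] using this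

/-- the derivative of an even function is odd -/
theorem fss_odd_of_even {g g' : ℝ → ℝ} (he : ∀ x, g (-x) = g x) (hg : ∀ x, HasDerivAt g (g' x) x) (x : ℝ) : g' (-x) = -g' x := by
  have h1 : HasDerivAt (fun y => g (-y)) (g' (-x) * -1) x := (hg (-x)).comp x (hasDerivAt_neg x)
  have h2 : (fun y => g (-y)) = g := funext he
  rw [h2] at h1
  have := h1.unique (hg x)
  linarith

/-- the derivative of an odd function is even -/
theorem fss_even_of_odd {g g' : ℝ → ℝ} (he : ∀ x, g (-x) = -g x) (hg : ∀ x, HasDerivAt g (g' x) x) (x : ℝ) : g' (-x) = g' x := by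
  have h1 : HasDerivAt (fun y => g (-y)) (g' (-x) * -1) x := (hg (-x)).comp x (hasDerivAt_neg x)
  have h2 : (fun y => g (-y)) = fun y => -g y := funext he
  rw [h2] at h1
  have := h1.unique (hg x).fun_neg
  linarith

theorem fss_zero_of_odd {g : ℝ → ℝ} (he : ∀ x, g (-x) = -g x) : g 0 = 0 := by
  have := he 0
  rw [neg_zero] at this
  linarith

/-! ### polynomially bounded functions on the open half line -/

/-- `|g x| ≤ A (1 + x)^k` on `x > 0` -/
def FssPB (g : ℝ → ℝ) : Prop := ∃ (A : ℝ) (k : ℕ), 0 ≤ A ∧ ∀ x, 0 < x → |g x| ≤ A * (1 + x) ^ k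

theorem FssPB.const (c : ℝ) : FssPB (fun _ => c) := ⟨|c|, 0, abs_nonneg _, fun x _ => by simp⟩

theorem FssPB.of_le {g : ℝ → ℝ} {A : ℝ} {k : ℕ} (h : ∀ x, 0 < x → |g x| ≤ A * (1 + x) ^ k) : FssPB g := by
  refine ⟨|A|, k, abs_nonneg _, fun x hx => (h x hx).trans ?_⟩
  exact mul_le_mul_of_nonneg_right (le_abs_self A) (by positivity)

theorem FssPB.add {g h : ℝ → ℝ} (hg : FssPB g) (hh : FssPB h) : FssPB (fun x => g x + h x) := by
  obtain ⟨A, k, hA, h1⟩ := hg
  obtain ⟨B, l, hB, h2⟩ := hh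
  refine ⟨A + B, max k l, by positivity, fun x hx => ?_⟩
  have hx1 : (1 : ℝ) ≤ 1 + x := by linarith
  have e1 : (1 + x) ^ k ≤ (1 + x) ^ max k l := pow_le_pow_right₀ hx1 (le_max_left _ _)
  have e2 : (1 + x) ^ l ≤ (1 + x) ^ max k l := pow_le_pow_right₀ hx1 (le_max_right _ _)
  calc |g x + h x| ≤ |g x| + |h x| := abs_add_le _ _
    _ ≤ A * (1 + x) ^ k + B * (1 + x) ^ l := add_le_add (h1 x hx) (h2 x hx)
    _ ≤ A * (1 + x) ^ max k l + B * (1 + x) ^ max k l := add_le_add (mul_le_mul_of_nonneg_left e1 hA) (mul_le_mul_of_nonneg_left e2 hB)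
    _ = (A + B) * (1 + x) ^ max k l := by ring

theorem FssPB.neg {g : ℝ → ℝ} (hg : FssPB g) : FssPB (fun x => -g x) := by
  obtain ⟨A, k, hA, h1⟩ := hg
  exact ⟨A, k, hA, fun x hx => by rw [abs_neg]; exact h1 x hx⟩

theorem FssPB.sub {g h : ℝ → ℝ} (hg : FssPB g) (hh : FssPB h) : FssPB (fun x => g x - h x) := by
  simpa [sub_eq_add_neg] using hg.add hh.neg

theorem FssPB.mul {g h : ℝ → ℝ} (hg : FssPB g) (hh : FssPB h) : FssPB (fun x => g x * h x) := by
  obtain ⟨A, k, hA, h1⟩ := hg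
  obtain ⟨B, l, hB, h2⟩ := hh
  refine ⟨A * B, k + l, by positivity, fun x hx => ?_⟩
  rw [abs_mul]
  calc |g x| * |h x| ≤ (A * (1 + x) ^ k) * (B * (1 + x) ^ l) := mul_le_mul (h1 x hx) (h2 x hx) (abs_nonneg _) (by positivity)
    _ = A * B * (1 + x) ^ (k + l) := by ring

theorem FssPB.pow {g : ℝ → ℝ} (hg : FssPB g) (n : ℕ) : FssPB (fun x => g x ^ n) := by
  induction n with
  | zero => simpa using FssPB.const 1
  | succ n ih => simpa [pow_succ] using ih.mul hg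

/-! ### the Gaussian envelope -/

theorem fss_pow_le_exp (k : ℕ) {x : ℝ} (hx : 0 < x) : (1 + x) ^ k ≤ (k.factorial : ℝ) * Real.exp (1 + x) := by
  have := Real.pow_div_factorial_le_exp (1 + x) (by linarith) k
  rwa [div_le_iff₀ (by positivity), mul_comm] at this

theorem fss_gauss_integrable {t : ℝ} (ht : 0 < t) (c : ℝ) : Integrable (fun x : ℝ => Real.exp (-x ^ 2 / (2 * t) + c * x)) := by
  have h1 := ((integrable_exp_neg_mul_sq (b := 1 / (2 * t)) (by positivity)).comp_sub_right (t * c)).const_mul (Real.exp (t * c ^ 2 / 2))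
  refine h1.congr (Eventually.of_forall fun x => ?_)
  simp only
  rw [← Real.exp_add]
  congr 1
  field_simp
  ring

theorem fss_env_le {t : ℝ} (B : ℝ) (k : ℕ) {x : ℝ} (hx : 0 < x) :
    (1 + x) ^ k * Real.exp (-x ^ 2 / (2 * t) + B * x) ≤ (k.factorial : ℝ) * Real.exp 1 * Real.exp (-x ^ 2 / (2 * t) + (B + 1) * x) := by
  have h1 := fss_pow_le_exp k hx
  have h2 : (k.factorial : ℝ) * Real.exp 1 * Real.exp (-x ^ 2 / (2 * t) + (B + 1) * x)
      = (k.factorial : ℝ) * Real.exp (1 + x) * Real.exp (-x ^ 2 / (2 * t) + B * x) := by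
    rw [mul_assoc, mul_assoc, ← Real.exp_add, ← Real.exp_add]
    congr 2
    ring
  rw [h2]
  exact mul_le_mul_of_nonneg_right h1 (Real.exp_pos _).le

theorem fss_gauss_tendsto {t : ℝ} (ht : 0 < t) (c : ℝ) : Tendsto (fun x : ℝ => Real.exp (-x ^ 2 / (2 * t) + c * x)) atTop (𝓝 0) := by
  refine Real.tendsto_exp_atBot.comp ?_
  have h1 : Tendsto (fun x : ℝ => -x) atTop atBot := tendsto_neg_atTop_atBot
  refine tendsto_atBot_mono' _ ?_ h1
  filter_upwards [eventually_ge_atTop (2 * t * (c + 1)), eventually_gt_atTop 0] with x hx hx0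
  have : (c + 1) * x ≤ x ^ 2 / (2 * t) := by
    rw [le_div_iff₀ (by positivity)]
    nlinarith
  have e : -x ^ 2 / (2 * t) = -(x ^ 2 / (2 * t)) := by ring
  rw [e]
  linarith

/-- products `f g`, `f` under the envelope, `g` polynomially bounded, are integrable on the half line -/
theorem fss_integrableOn {t A0 B : ℝ} (ht : 0 < t) {f g : ℝ → ℝ} (cf : ContinuousOn f (Ioi 0)) (cg : ContinuousOn g (Ioi 0))
    (hf : ∀ x, 0 < x → |f x| ≤ A0 * Real.exp (-x ^ 2 / (2 * t) + B * x)) (hg : FssPB g) : IntegrableOn (fun x => f x * g x) (Ioi 0) := by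
  obtain ⟨A, k, hA, h1⟩ := hg
  have hb : IntegrableOn (fun x : ℝ => A0 * A * ((k.factorial : ℝ) * Real.exp 1) * Real.exp (-x ^ 2 / (2 * t) + (B + 1) * x)) (Ioi 0) :=
    ((fss_gauss_integrable ht (B + 1)).const_mul _).integrableOn
  refine Integrable.mono' hb ((cf.mul cg).aestronglyMeasurable measurableSet_Ioi) ?_
  refine ae_restrict_of_forall_mem measurableSet_Ioi (fun x hx => ?_)
  have hx' : (0 : ℝ) < x := hx
  have hA0 : 0 ≤ A0 := by
    have := (abs_nonneg _).trans (hf x hx')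
    exact nonneg_of_mul_nonneg_left this (Real.exp_pos _)
  rw [Real.norm_eq_abs, abs_mul]
  calc |f x| * |g x| ≤ (A0 * Real.exp (-x ^ 2 / (2 * t) + B * x)) * (A * (1 + x) ^ k) :=
        mul_le_mul (hf x hx') (h1 x hx') (abs_nonneg _) (by positivity)
    _ = A0 * A * ((1 + x) ^ k * Real.exp (-x ^ 2 / (2 * t) + B * x)) := by ring
    _ ≤ A0 * A * ((k.factorial : ℝ) * Real.exp 1 * Real.exp (-x ^ 2 / (2 * t) + (B + 1) * x)) :=
        mul_le_mul_of_nonneg_left (fss_env_le B k hx') (by positivity)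
    _ = _ := by ring

/-- such products tend to `0` at `+∞` -/
theorem fss_tendsto_atTop {t A0 B : ℝ} (ht : 0 < t) {f g : ℝ → ℝ} (hA0 : 0 ≤ A0)
    (hf : ∀ x, 0 < x → |f x| ≤ A0 * Real.exp (-x ^ 2 / (2 * t) + B * x)) (hg : FssPB g) : Tendsto (fun x => f x * g x) atTop (𝓝 0) := by
  obtain ⟨A, k, hA, h1⟩ := hg
  have hb : Tendsto (fun x : ℝ => A0 * A * ((k.factorial : ℝ) * Real.exp 1) * Real.exp (-x ^ 2 / (2 * t) + (B + 1) * x)) atTop (𝓝 0) := by
    simpa using (fss_gauss_tendsto ht (B + 1)).const_mul (A0 * A * ((k.factorial : ℝ) * Real.exp 1))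
  refine squeeze_zero_norm' ?_ hb
  filter_upwards [eventually_gt_atTop 0] with x hx'
  rw [Real.norm_eq_abs, abs_mul]
  calc |f x| * |g x| ≤ (A0 * Real.exp (-x ^ 2 / (2 * t) + B * x)) * (A * (1 + x) ^ k) :=
        mul_le_mul (hf x hx') (h1 x hx') (abs_nonneg _) (by positivity)
    _ = A0 * A * ((1 + x) ^ k * Real.exp (-x ^ 2 / (2 * t) + B * x)) := by ring
    _ ≤ A0 * A * ((k.factorial : ℝ) * Real.exp 1 * Real.exp (-x ^ 2 / (2 * t) + (B + 1) * x)) :=
        mul_le_mul_of_nonneg_left (fss_env_le B k hx') (by positivity)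
    _ = _ := by ring

/-! ## B. the certificate functions are polynomially bounded and continuous -/

section closure

variable {r r1 r2 r3 s s1 s2 : ℝ → ℝ}

theorem fss_F_PB (hr : FssPB r) (hr1 : FssPB r1) (hs : FssPB s) (hs1 : FssPB s1) (hb : FssPB (fun y => -r2 y / r y))
    (hq : FssPB (fun y => s y / r y)) :
    FssPB (fun y => fscF (r y ^ 2) (r y * s y) (r1 y) (-r2 y / r y) (s1 y - s y / r y * r1 y)) := by
  unfold fscF
  repeat (first | assumption | exact FssPB.const _ | apply FssPB.add | apply FssPB.sub | apply FssPB.mul | apply FssPB.pow | apply FssPB.neg)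

theorem fss_W_PB (hr : FssPB r) (hr1 : FssPB r1) (hr3 : FssPB r3) (hs : FssPB s) (hs1 : FssPB s1) (hs2 : FssPB s2)
    (hb : FssPB (fun y => -r2 y / r y)) (hq : FssPB (fun y => s y / r y)) : FssPB (fscWf r r1 r2 r3 s s1 s2) := by
  unfold fscWf fscW fscFR fscFK fscFv fscFb fscFj fscF
  repeat (first | assumption | exact FssPB.const _ | apply FssPB.add | apply FssPB.sub | apply FssPB.mul | apply FssPB.pow | apply FssPB.neg)

theorem fss_Cv_PB (hr1 : FssPB r1) (hr2 : FssPB r2) (hr3 : FssPB r3) : FssPB (fscCv r1 r2 r3) := by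
  unfold fscCv
  repeat (first | assumption | exact FssPB.const _ | apply FssPB.add | apply FssPB.sub | apply FssPB.mul | apply FssPB.pow | apply FssPB.neg)

theorem fss_F_cont (hr : ContinuousOn r (Ioi 0)) (hr1 : ContinuousOn r1 (Ioi 0)) (hr2 : ContinuousOn r2 (Ioi 0)) (hs : ContinuousOn s (Ioi 0))
    (hs1 : ContinuousOn s1 (Ioi 0)) (h0 : ∀ x ∈ Ioi (0 : ℝ), r x ≠ 0) :
    ContinuousOn (fun y => fscF (r y ^ 2) (r y * s y) (r1 y) (-r2 y / r y) (s1 y - s y / r y * r1 y)) (Ioi 0) := by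
  have hb : ContinuousOn (fun y => -r2 y / r y) (Ioi 0) := hr2.neg.div hr h0
  have hq : ContinuousOn (fun y => s y / r y) (Ioi 0) := hs.div hr h0
  unfold fscF
  fun_prop

theorem fss_W_cont (hr : ContinuousOn r (Ioi 0)) (hr1 : ContinuousOn r1 (Ioi 0)) (hr2 : ContinuousOn r2 (Ioi 0)) (hr3 : ContinuousOn r3 (Ioi 0))
    (hs : ContinuousOn s (Ioi 0)) (hs1 : ContinuousOn s1 (Ioi 0)) (hs2 : ContinuousOn s2 (Ioi 0)) (h0 : ∀ x ∈ Ioi (0 : ℝ), r x ≠ 0) :
    ContinuousOn (fscWf r r1 r2 r3 s s1 s2) (Ioi 0) := by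
  have hb : ContinuousOn (fun y => -r2 y / r y) (Ioi 0) := hr2.neg.div hr h0
  have hq : ContinuousOn (fun y => s y / r y) (Ioi 0) := hs.div hr h0
  unfold fscWf fscW fscFR fscFK fscFv fscFb fscFj fscF
  fun_prop

end closure

/-! ## C. the data -/

/-- the static data at one time `t > 0` in a step of mass `m > 0` -/
structure FssData (t m : ℝ) (V V1 V2 V3 V4 ψ ψ1 ψ2 ψ3 : ℝ → ℝ) : Prop where
  ht : 0 < t
  hm : 0 < m
  dV : ∀ x, HasDerivAt V (V1 x) x
  dV1 : ∀ x, HasDerivAt V1 (V2 x) x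
  dV2 : ∀ x, HasDerivAt V2 (V3 x) x
  dV3 : ∀ x, HasDerivAt V3 (V4 x) x
  cV4 : Continuous V4
  dψ : ∀ x, HasDerivAt ψ (ψ1 x) x
  dψ1 : ∀ x, HasDerivAt ψ1 (ψ2 x) x
  dψ2 : ∀ x, HasDerivAt ψ2 (ψ3 x) x
  cψ3 : Continuous ψ3
  bd : ∃ C : ℝ, ∀ x, |V1 x| ≤ C ∧ |V2 x| ≤ C ∧ |V3 x| ≤ C ∧ |V4 x| ≤ C ∧ |ψ1 x| ≤ C ∧ |ψ2 x| ≤ C ∧ |ψ3 x| ≤ C
  eV : ∀ x, V (-x) = V x
  eψ : ∀ x, ψ (-x) = ψ x
  pos : ∀ x, 0 < V2 x
  sY : ∀ x, 0 < x → V3 x + 2 * m * V1 x * V2 x ≤ 0
  sQ : ∀ x, 0 < x → 0 ≤ V1 x * V4 x - V2 x * V3 x + 2 * m * V1 x ^ 2 * V3 x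
  sJ : ∀ x, 0 < x → 0 ≤ V1 x * (1 / t + ψ2 x) - (x / t + ψ1 x) * V2 x
  sψ2 : ∀ x, 0 ≤ ψ2 x
  sψ3 : ∀ x, 0 < x → ψ3 x ≤ 0

section data

variable {t m : ℝ} {V V1 V2 V3 V4 ψ ψ1 ψ2 ψ3 : ℝ → ℝ}

/-- `V1 ≥ c₀ min(x, 1)` on `x > 0` -/
theorem FssData.lower (D : FssData t m V V1 V2 V3 V4 ψ ψ1 ψ2 ψ3) : ∃ c0 : ℝ, 0 < c0 ∧ ∀ x, 0 < x → c0 * min x 1 ≤ V1 x := by
  have hV10 : V1 0 = 0 := fss_zero_of_odd (fss_odd_of_even D.eV D.dV)
  have cV2 : Continuous V2 := continuous_iff_continuousAt.2 fun x => (D.dV2 x).continuousAt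
  obtain ⟨x0, _, hmin⟩ := (isCompact_Icc (a := (0 : ℝ)) (b := 1)).exists_isMinOn ⟨0, by simp⟩ cV2.continuousOn
  have cV1 : Continuous V1 := continuous_iff_continuousAt.2 fun x => (D.dV1 x).continuousAt
  have dfV1 : Differentiable ℝ V1 := fun x => (D.dV1 x).differentiableAt
  have h1 : ∀ x ∈ Icc (0 : ℝ) 1, V2 x0 * x ≤ V1 x := by
    intro x hx
    have := Convex.mul_sub_le_image_sub_of_le_deriv (convex_Icc (0 : ℝ) 1) cV1.continuousOn dfV1.differentiableOn (C := V2 x0)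
      (fun y hy => by rw [(D.dV1 y).deriv]; exact hmin (interior_subset hy)) 0 (by simp) x hx hx.1
    rw [hV10] at this
    linarith
  have h2 : ∀ x, 1 ≤ x → V1 1 ≤ V1 x := by
    intro x hx
    have := Convex.mul_sub_le_image_sub_of_le_deriv convex_univ cV1.continuousOn dfV1.differentiableOn (C := 0)
      (fun y _ => by rw [(D.dV1 y).deriv]; exact (D.pos y).le) 1 (mem_univ _) x (mem_univ _) hx
    linarith
  refine ⟨V2 x0, D.pos x0, fun x hx => ?_⟩
  rcases le_total x 1 with h | h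
  · rw [min_eq_left h]
    exact h1 x ⟨hx.le, h⟩
  · rw [min_eq_right h]
    have := h1 1 (by simp)
    linarith [h2 x h]

/-- **the static certificate, Lebesgue form** -/
theorem FssData.coercive (D : FssData t m V V1 V2 V3 V4 ψ ψ1 ψ2 ψ3) :
    m ^ 2 / 1000 * ∫ x, Real.exp (-x ^ 2 / (2 * t) + (m * V x - ψ x)) * V2 x ^ 4
      ≤ ∫ x, Real.exp (-x ^ 2 / (2 * t) + (m * V x - ψ x)) * (V4 x ^ 2 - 12 * m * V2 x * V3 x ^ 2 + 6 * m ^ 2 * V2 x ^ 4) := by
  have ht := D.ht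
  have hm := D.hm
  obtain ⟨C, hC⟩ := D.bd
  have hC0 : 0 ≤ C := (abs_nonneg _).trans (hC 0).1
  obtain ⟨c0, hc0, hlow⟩ := D.lower
  -- parities
  have oV1 := fss_odd_of_even D.eV D.dV
  have eV2 := fss_even_of_odd oV1 D.dV1
  have oV3 := fss_odd_of_even eV2 D.dV2
  have eV4 := fss_even_of_odd oV3 D.dV3
  have oψ1 := fss_odd_of_even D.eψ D.dψ
  have hV10 := fss_zero_of_odd oV1
  have hV30 := fss_zero_of_odd oV3
  have hψ10 := fss_zero_of_odd oψ1
  -- the functions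
  obtain ⟨r, hr⟩ : ∃ r : ℝ → ℝ, ∀ x, r x = m * V1 x := ⟨fun x => m * V1 x, fun _ => rfl⟩
  obtain ⟨r1, hr1⟩ : ∃ r1 : ℝ → ℝ, ∀ x, r1 x = m * V2 x := ⟨fun x => m * V2 x, fun _ => rfl⟩
  obtain ⟨r2, hr2⟩ : ∃ r2 : ℝ → ℝ, ∀ x, r2 x = m * V3 x := ⟨fun x => m * V3 x, fun _ => rfl⟩
  obtain ⟨r3, hr3⟩ : ∃ r3 : ℝ → ℝ, ∀ x, r3 x = m * V4 x := ⟨fun x => m * V4 x, fun _ => rfl⟩
  obtain ⟨s, hs⟩ : ∃ s : ℝ → ℝ, ∀ x, s x = x / t + ψ1 x := ⟨fun x => x / t + ψ1 x, fun _ => rfl⟩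
  obtain ⟨s1, hs1⟩ : ∃ s1 : ℝ → ℝ, ∀ x, s1 x = 1 / t + ψ2 x := ⟨fun x => 1 / t + ψ2 x, fun _ => rfl⟩
  obtain ⟨f, hf⟩ : ∃ f : ℝ → ℝ, ∀ x, f x = Real.exp (-x ^ 2 / (2 * t) + (m * V x - ψ x)) := ⟨_, fun _ => rfl⟩
  -- derivatives
  have dr : ∀ x, HasDerivAt r (r1 x) x := fun x => by rw [funext hr, hr1 x]; exact (D.dV1 x).const_mul m
  have dr1 : ∀ x, HasDerivAt r1 (r2 x) x := fun x => by rw [funext hr1, hr2 x]; exact (D.dV2 x).const_mul m
  have dr2 : ∀ x, HasDerivAt r2 (r3 x) x := fun x => by rw [funext hr2, hr3 x]; exact (D.dV3 x).const_mul m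
  have ds : ∀ x, HasDerivAt s (s1 x) x := fun x => by
    rw [funext hs, hs1 x]; exact ((hasDerivAt_id' x).div_const t).add (D.dψ1 x)
  have ds1 : ∀ x, HasDerivAt s1 (ψ3 x) x := fun x => by rw [funext hs1]; exact (D.dψ2 x).const_add (1 / t)
  have df : ∀ x, HasDerivAt f ((r x - s x) * f x) x := fun x => by
    have h1 : HasDerivAt (fun y : ℝ => -y ^ 2 / (2 * t)) (-x / t) x := by
      have := ((hasDerivAt_pow 2 x).fun_neg).div_const (2 * t)
      refine this.congr_deriv ?_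
      field_simp
      norm_num
    have h2 := (h1.fun_add (((D.dV x).const_mul m).fun_sub (D.dψ x))).exp
    rw [funext hf]
    refine h2.congr_deriv ?_
    rw [hr, hs]
    ring
  -- continuity
  have cr : Continuous r := continuous_iff_continuousAt.2 fun x => (dr x).continuousAt
  have cr1 : Continuous r1 := continuous_iff_continuousAt.2 fun x => (dr1 x).continuousAt
  have cr2 : Continuous r2 := continuous_iff_continuousAt.2 fun x => (dr2 x).continuousAt
  have cr3 : Continuous r3 := by rw [funext hr3]; exact continuous_const.mul D.cV4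
  have cs : Continuous s := continuous_iff_continuousAt.2 fun x => (ds x).continuousAt
  have cs1 : Continuous s1 := continuous_iff_continuousAt.2 fun x => (ds1 x).continuousAt
  have cf : Continuous f := continuous_iff_continuousAt.2 fun x => (df x).continuousAt
  -- elementary bounds
  have hμ : ∀ x : ℝ, 0 < x → 0 < min x 1 := fun x hx => lt_min hx one_pos
  have hrlow : ∀ x, 0 < x → m * c0 * min x 1 ≤ r x := fun x hx => by
    rw [hr, mul_assoc]; exact mul_le_mul_of_nonneg_left (hlow x hx) hm.le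
  have h0 : ∀ x, 0 < x → 0 < r x := fun x hx => lt_of_lt_of_le (by have := hμ x hx; positivity) (hrlow x hx)
  have hψ1nn : ∀ x, 0 < x → 0 ≤ ψ1 x := by
    intro x hx
    have cψ1 : Continuous ψ1 := continuous_iff_continuousAt.2 fun x => (D.dψ1 x).continuousAt
    have := Convex.mul_sub_le_image_sub_of_le_deriv convex_univ cψ1.continuousOn
      (fun y _ => (D.dψ1 y).differentiableAt.differentiableWithinAt) (C := 0)
      (fun y _ => by rw [(D.dψ1 y).deriv]; exact D.sψ2 y) 0 (mem_univ _) x (mem_univ _) hx.le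
    rw [hψ10] at this
    linarith
  have hψ1le : ∀ x, 0 < x → ψ1 x ≤ C * x := fun x hx => by
    have := fss_abs_le_mul hψ10 D.dψ1 (fun y => (hC y).2.2.2.2.2.1) x
    rw [abs_of_pos hx] at this
    exact (le_abs_self _).trans this
  have hV3le : ∀ x, 0 < x → |V3 x| ≤ C * min x 1 := fun x hx => by
    have h1 := fss_abs_le_mul hV30 D.dV3 (fun y => (hC y).2.2.2.1) x
    rw [abs_of_pos hx] at h1
    rcases le_total x 1 with h | h
    · rw [min_eq_left h]; exact h1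
    · rw [min_eq_right h, mul_one]; exact (hC x).2.2.1
  -- polynomial bounds
  have pr : FssPB r := FssPB.of_le (A := m * C) (k := 0) fun x _ => by
    rw [hr, abs_mul, abs_of_pos hm, pow_zero, mul_one]; exact mul_le_mul_of_nonneg_left (hC x).1 hm.le
  have pr1 : FssPB r1 := FssPB.of_le (A := m * C) (k := 0) fun x _ => by
    rw [hr1, abs_mul, abs_of_pos hm, pow_zero, mul_one]; exact mul_le_mul_of_nonneg_left (hC x).2.1 hm.le
  have pr2 : FssPB r2 := FssPB.of_le (A := m * C) (k := 0) fun x _ => by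
    rw [hr2, abs_mul, abs_of_pos hm, pow_zero, mul_one]; exact mul_le_mul_of_nonneg_left (hC x).2.2.1 hm.le
  have pr3 : FssPB r3 := FssPB.of_le (A := m * C) (k := 0) fun x _ => by
    rw [hr3, abs_mul, abs_of_pos hm, pow_zero, mul_one]; exact mul_le_mul_of_nonneg_left (hC x).2.2.2.1 hm.le
  have hsnn : ∀ x, 0 < x → 0 ≤ s x := fun x hx => by
    rw [hs]; have := hψ1nn x hx; positivity
  have hsle : ∀ x, 0 < x → s x ≤ (1 / t + C) * x := fun x hx => by
    rw [hs]; have := hψ1le x hx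
    have e : x / t = 1 / t * x := by ring
    rw [e]; linarith
  have ps : FssPB s := FssPB.of_le (A := 1 / t + C) (k := 1) fun x hx => by
    rw [abs_of_nonneg (hsnn x hx), pow_one]
    refine (hsle x hx).trans (mul_le_mul_of_nonneg_left (by linarith) (by positivity))
  have ps1 : FssPB s1 := FssPB.of_le (A := 1 / t + C) (k := 0) fun x _ => by
    rw [hs1, pow_zero, mul_one]
    refine (abs_add_le _ _).trans ?_
    rw [abs_of_pos (by positivity : 0 < 1 / t)]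
    linarith [(hC x).2.2.2.2.2.1]
  have ps2 : FssPB ψ3 := FssPB.of_le (A := C) (k := 0) fun x _ => by
    rw [pow_zero, mul_one]; exact (hC x).2.2.2.2.2.2
  have pb : FssPB (fun y => -r2 y / r y) := FssPB.of_le (A := C / c0) (k := 0) fun x hx => by
    rw [pow_zero, mul_one, abs_div, abs_neg, abs_of_pos (h0 x hx), div_le_iff₀ (h0 x hx), hr2, abs_mul, abs_of_pos hm]
    calc m * |V3 x| ≤ m * (C * min x 1) := mul_le_mul_of_nonneg_left (hV3le x hx) hm.le
      _ = C / c0 * (m * c0 * min x 1) := by field_simp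
      _ ≤ C / c0 * r x := mul_le_mul_of_nonneg_left (hrlow x hx) (by positivity)
  have pq : FssPB (fun y => s y / r y) := FssPB.of_le (A := (1 / t + C) / (m * c0)) (k := 1) fun x hx => by
    rw [pow_one, abs_div, abs_of_pos (h0 x hx), abs_of_nonneg (hsnn x hx), div_le_iff₀ (h0 x hx)]
    have hxm : x ≤ (1 + x) * min x 1 := by
      rcases le_total x 1 with h | h
      · rw [min_eq_left h]; nlinarith
      · rw [min_eq_right h]; linarith
    calc s x ≤ (1 / t + C) * x := hsle x hx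
      _ ≤ (1 / t + C) * ((1 + x) * min x 1) := mul_le_mul_of_nonneg_left hxm (by positivity)
      _ = (1 / t + C) / (m * c0) * (1 + x) * (m * c0 * min x 1) := by field_simp
      _ ≤ (1 / t + C) / (m * c0) * (1 + x) * r x := mul_le_mul_of_nonneg_left (hrlow x hx) (by positivity)
  -- the envelope of `f`
  have hf0 : ∀ x, 0 < f x := fun x => by rw [hf]; exact Real.exp_pos _
  obtain ⟨A0, hA0⟩ : ∃ A0 : ℝ, A0 = Real.exp (m * V 0 - ψ 0) := ⟨_, rfl⟩
  have hA0p : 0 < A0 := by rw [hA0]; exact Real.exp_pos _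
  obtain ⟨B, hB⟩ : ∃ B : ℝ, B = (m + 1) * C := ⟨_, rfl⟩
  have hB0 : 0 ≤ B := by rw [hB]; positivity
  have hfenv : ∀ x, 0 < x → |f x| ≤ A0 * Real.exp (-x ^ 2 / (2 * t) + B * x) := fun x hx => by
    rw [abs_of_pos (hf0 x), hf, hA0, ← Real.exp_add]
    apply Real.exp_le_exp.2
    have h1 := fss_abs_sub_le_mul D.dV (fun y => (hC y).1) x
    have h2 := fss_abs_sub_le_mul D.dψ (fun y => (hC y).2.2.2.2.1) x
    rw [abs_of_pos hx] at h1 h2
    have h1' := (abs_le.1 h1).2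
    have h2' := (abs_le.1 h2).1
    have h3 : m * (V x - V 0) ≤ m * (C * x) := mul_le_mul_of_nonneg_left h1' hm.le
    rw [hB]
    nlinarith
  have hne : ∀ x ∈ Ioi (0 : ℝ), r x ≠ 0 := fun x hx => (h0 x hx).ne'
  have pF := fss_F_PB (r2 := r2) pr pr1 ps ps1 pb pq
  have cF := fss_F_cont cr.continuousOn cr1.continuousOn cr2.continuousOn cs.continuousOn cs1.continuousOn hne
  -- the flux
  have hbi : Tendsto (fscG r r1 r2 s s1 f) atTop (𝓝 0) := by
    have := fss_tendsto_atTop ht hA0p.le hfenv (pr.mul pF)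
    refine this.congr (fun x => ?_)
    unfold fscG
    ring
  have hb0 : Tendsto (fscG r r1 r2 s s1 f) (𝓝[>] 0) (𝓝 0) := by
    obtain ⟨A, k, hA, hF⟩ := pF
    have hr0 : r 0 = 0 := by rw [hr, hV10, mul_zero]
    have hlim : Tendsto (fun x => |r x| * (A0 * Real.exp B * (A * 2 ^ k))) (𝓝[>] 0) (𝓝 0) := by
      have h1 : Tendsto (fun x => |r x| * (A0 * Real.exp B * (A * 2 ^ k))) (𝓝 0) (𝓝 (|r 0| * (A0 * Real.exp B * (A * 2 ^ k)))) :=
        ((cr.abs).mul (continuous_const (y := A0 * Real.exp B * (A * 2 ^ k)))).tendsto 0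
      rw [hr0, abs_zero, zero_mul] at h1
      exact h1.mono_left nhdsWithin_le_nhds
    refine squeeze_zero_norm' ?_ hlim
    filter_upwards [Ioo_mem_nhdsGT (zero_lt_one' ℝ)] with x hx
    unfold fscG
    rw [Real.norm_eq_abs, mul_assoc, abs_mul, abs_mul]
    refine mul_le_mul_of_nonneg_left (mul_le_mul ?_ ?_ (abs_nonneg _) (by positivity)) (abs_nonneg _)
    · refine (hfenv x hx.1).trans (mul_le_mul_of_nonneg_left (Real.exp_le_exp.2 ?_) hA0p.le)
      have h1 : -x ^ 2 / (2 * t) ≤ 0 := by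
        have : 0 ≤ x ^ 2 / (2 * t) := by positivity
        have e : -x ^ 2 / (2 * t) = -(x ^ 2 / (2 * t)) := by ring
        rw [e]; linarith
      have h2 : B * x ≤ B := by nlinarith [hx.2]
      linarith
    · refine (hF x hx.1).trans (mul_le_mul_of_nonneg_left (pow_le_pow_left₀ (by linarith [hx.1]) (by linarith [hx.2]) k) hA)
  -- integrability
  have i1 := fss_integrableOn ht cf.continuousOn
    (fss_W_cont cr.continuousOn cr1.continuousOn cr2.continuousOn cr3.continuousOn cs.continuousOn cs1.continuousOn D.cψ3.continuousOn hne)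
    hfenv (fss_W_PB (r2 := r2) pr pr1 pr3 ps ps1 ps2 pb pq)
  have cCv : Continuous (fscCv r1 r2 r3) := by unfold fscCv; fun_prop
  have i2 := fss_integrableOn ht cf.continuousOn cCv.continuousOn hfenv (fss_Cv_PB pr1 pr2 pr3)
  have i3 := fss_integrableOn ht cf.continuousOn (cr1.pow 4).continuousOn hfenv (pr1.pow 4)
  -- the certificate
  have key := fsc_coercive (r := r) (r1 := r1) (r2 := r2) (r3 := r3) (s := s) (s1 := s1) (s2 := ψ3) (f := f) h0
    (fun x _ => dr x) (fun x _ => dr1 x) (fun x _ => dr2 x) (fun x _ => ds x) (fun x _ => ds1 x) (fun x _ => df x) (fun x _ => (hf0 x).le)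
    (fun x _ => by rw [hr1]; exact (mul_pos hm (D.pos x)).le) hsnn
    (fun x hx => by
      have := D.sY x hx
      have e : r2 x + 2 * r x * r1 x = m * (V3 x + 2 * m * V1 x * V2 x) := by rw [hr, hr1, hr2]; ring
      rw [e]; exact mul_nonpos_of_nonneg_of_nonpos hm.le this)
    (fun x hx => by
      have := D.sQ x hx
      have e : r x * r3 x - r2 x * r1 x + 2 * r x ^ 2 * r2 x = m ^ 2 * (V1 x * V4 x - V2 x * V3 x + 2 * m * V1 x ^ 2 * V3 x) := by
        rw [hr, hr1, hr2, hr3]; ring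
      rw [e]; positivity)
    (fun x hx => by
      have := D.sJ x hx
      have e : r x * s1 x - s x * r1 x = m * (V1 x * (1 / t + ψ2 x) - (x / t + ψ1 x) * V2 x) := by rw [hr, hr1, hs, hs1]; ring
      rw [e]; positivity)
    D.sψ3 hb0 hbi i1 i2 i3
    (fun x => by rw [hf, hf, D.eV, D.eψ, neg_sq]) (fun x => by rw [hr1, hr1, eV2]) (fun x => by rw [hr2, hr2, oV3]; ring)
    (fun x => by rw [hr3, hr3, eV4])
  have e1 : ∫ x, f x * r1 x ^ 4 = m ^ 4 * ∫ x, Real.exp (-x ^ 2 / (2 * t) + (m * V x - ψ x)) * V2 x ^ 4 := by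
    rw [← integral_const_mul]
    refine integral_congr_ae (Eventually.of_forall fun x => ?_)
    show f x * r1 x ^ 4 = _
    rw [hf, hr1]; ring
  have e2 : ∫ x, f x * fscCv r1 r2 r3 x
      = m ^ 2 * ∫ x, Real.exp (-x ^ 2 / (2 * t) + (m * V x - ψ x)) * (V4 x ^ 2 - 12 * m * V2 x * V3 x ^ 2 + 6 * m ^ 2 * V2 x ^ 4) := by
    rw [← integral_const_mul]
    refine integral_congr_ae (Eventually.of_forall fun x => ?_)
    simp only [fscCv]
    rw [hf, hr1, hr2, hr3]; ring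
  rw [e1, e2] at key
  refine le_of_mul_le_mul_left ?_ (by positivity : 0 < m ^ 2)
  calc m ^ 2 * (m ^ 2 / 1000 * ∫ x, Real.exp (-x ^ 2 / (2 * t) + (m * V x - ψ x)) * V2 x ^ 4)
      = 1 / 1000 * (m ^ 4 * ∫ x, Real.exp (-x ^ 2 / (2 * t) + (m * V x - ψ x)) * V2 x ^ 4) := by ring
    _ ≤ _ := key

end data

/-! ## D. the exit in the vocabulary of `Sc/Cls.lean` -/

/-- `scHeat t Φ 0` as a Lebesgue integral (no integrability hypothesis) -/
theorem fss_scHeat_zero {t : ℝ} (ht : 0 < t) (Φ : ℝ → ℝ) :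
    scHeat t Φ 0 = (Real.sqrt t)⁻¹ * (Real.sqrt (2 * Real.pi))⁻¹ * ∫ x, Real.exp (-x ^ 2 / (2 * t)) * Φ x := by
  have hst : 0 < Real.sqrt t := Real.sqrt_pos.2 ht
  unfold scHeat
  rw [integral_gaussianReal_eq_integral_smul (by norm_num)]
  have h1 := MeasureTheory.Measure.integral_comp_mul_left (fun x => (Real.sqrt (2 * Real.pi))⁻¹ * (Real.exp (-x ^ 2 / (2 * t)) * Φ x)) (Real.sqrt t)
  rw [abs_of_pos (inv_pos.2 hst), smul_eq_mul, integral_const_mul (μ := volume) (Real.sqrt (2 * Real.pi))⁻¹ (fun y => Real.exp (-y ^ 2 / (2 * t)) * Φ y)] at h1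
  rw [mul_assoc, ← h1]
  refine integral_congr_ae (Eventually.of_forall fun g => ?_)
  simp only [gaussianPDFReal, smul_eq_mul, NNReal.coe_one, mul_one, sub_zero, zero_add]
  have e : -(Real.sqrt t * g) ^ 2 / (2 * t) = -g ^ 2 / 2 := by
    rw [mul_pow, Real.sq_sqrt ht.le]
    field_simp
  rw [e]
  ring

/-- **EXIT OF UNIT C4: the static certificate.** -/
theorem fss_static {t m : ℝ} {V V1 V2 V3 V4 ψ ψ1 ψ2 ψ3 : ℝ → ℝ} (D : FssData t m V V1 V2 V3 V4 ψ ψ1 ψ2 ψ3) :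
    m ^ 2 / 1000 * scHeat t (fun x => V2 x ^ 4 * Real.exp (m * V x - ψ x)) 0
      ≤ scHeat t (fun x => (V4 x ^ 2 - 12 * m * V2 x * V3 x ^ 2 + 6 * m ^ 2 * V2 x ^ 4) * Real.exp (m * V x - ψ x)) 0 := by
  have ht := D.ht
  rw [fss_scHeat_zero ht, fss_scHeat_zero ht]
  have key := D.coercive
  have hc : 0 < (Real.sqrt t)⁻¹ * (Real.sqrt (2 * Real.pi))⁻¹ := by
    have := Real.sqrt_pos.2 ht
    have := Real.sqrt_pos.2 (by positivity : 0 < 2 * Real.pi)
    positivity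
  have e1 : ∫ x, Real.exp (-x ^ 2 / (2 * t)) * (V2 x ^ 4 * Real.exp (m * V x - ψ x))
      = ∫ x, Real.exp (-x ^ 2 / (2 * t) + (m * V x - ψ x)) * V2 x ^ 4 :=
    integral_congr_ae (Eventually.of_forall fun x => by simp only [Real.exp_add]; ring)
  have e2 : ∫ x, Real.exp (-x ^ 2 / (2 * t)) * ((V4 x ^ 2 - 12 * m * V2 x * V3 x ^ 2 + 6 * m ^ 2 * V2 x ^ 4) * Real.exp (m * V x - ψ x))
      = ∫ x, Real.exp (-x ^ 2 / (2 * t) + (m * V x - ψ x)) * (V4 x ^ 2 - 12 * m * V2 x * V3 x ^ 2 + 6 * m ^ 2 * V2 x ^ 4) :=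
    integral_congr_ae (Eventually.of_forall fun x => by simp only [Real.exp_add]; ring)
  rw [e1, e2]
  have := mul_le_mul_of_nonneg_left key hc.le
  linarith

end Claimed.Agent.R286
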