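import Claimed.Agent.R286.Sc.Step
import Claimed.Agent.R286.Sc.MaxP

/-!
# Row 286, scalar block, unit C3 (backward shapes): the invariant `FsBI`      OWNER: helper100

FS `signs.tex`, Lemma shape:backward, in DIVISION-FREE form, typed on helper95's `scStep` (mass `m`, continuation `F`).
Jets of the continuation: `r = F'`, `v = F''`, `w = F'''`, `z = F''''`.   (FS variables: `l = m F`.)
    `v > 0`;   on `x > 0`:   `w ≤ 0`,   `Y = w + 2 m r v ≤ 0`,   `Q = r z - v w + 2 m r² w ≥ 0`.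
EXITS:  `fsb_term` (terminal `a⁻¹ log cosh (a z)`, `0 ≤ m ≤ a`),  `fsb_mono` (backward jump: the mass decreases),
        `fsb_step` (one Cole-Hopf step of mass `m`).
PDEs in the step (`τ` = variance run backwards):
    `w_τ = w_xx/2 + m r w_x + 3 m v w`,      `Y_τ = Y_xx/2 + m r Y_x + m v Y`,
    `Q_τ = Q_xx/2 + (m r - v/r) Q_x + (w/r + 2 m v) Q + m r w Y`.
No tail lemma, no quotient, no lift: bounded jets + the barrier `δ (1 + x²) e^{μ τ}` (`fsb_cmp`).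
The sign theorems are proved on the ABSTRACT jet interface `FsJet`; `fsb_jet` is the instance for `scStep`.
-/

set_option autoImplicit false

namespace Claimed.Agent.R286

open Filter Topology Set

/-- the backward invariant at mass `m` -/
structure FsBI (m : ℝ) (F : ℝ → ℝ) : Prop where
  cls : ∀ n, ScB n F
  even : ∀ x, F (-x) = F x
  v_pos : ∀ x, 0 < deriv^[2] F x
  w_le : ∀ x, 0 < x → deriv^[3] F x ≤ 0
  y_le : ∀ x, 0 < x → deriv^[3] F x + 2 * m * (deriv^[1] F x * deriv^[2] F x) ≤ 0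
  q_ge : ∀ x, 0 < x → 0 ≤ deriv^[1] F x * deriv^[4] F x - deriv^[2] F x * deriv^[3] F x
      + 2 * m * (deriv^[1] F x ^ 2 * deriv^[3] F x)

/-- abstract jets `L k τ x = ∂_x^k V(τ, x)` of a solution of `V_τ = (V_xx + m V_x²)/2` on `[0,S] × ℝ` -/
structure FsJet (m S : ℝ) (L : ℕ → ℝ → ℝ → ℝ) : Prop where
  dx : ∀ k, ∀ τ ∈ Icc 0 S, ∀ x, HasDerivAt (fun y => L k τ y) (L (k + 1) τ x) x
  dt1 : ∀ τ ∈ Ioc 0 S, ∀ x, HasDerivAt (fun s => L 1 s x) (L 3 τ x / 2 + m * (L 1 τ x * L 2 τ x)) τ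
  dt2 : ∀ τ ∈ Ioc 0 S, ∀ x, HasDerivAt (fun s => L 2 s x) (L 4 τ x / 2 + m * (L 2 τ x ^ 2 + L 1 τ x * L 3 τ x)) τ
  dt3 : ∀ τ ∈ Ioc 0 S, ∀ x, HasDerivAt (fun s => L 3 s x)
      (L 5 τ x / 2 + m * (3 * L 2 τ x * L 3 τ x + L 1 τ x * L 4 τ x)) τ
  dt4 : ∀ τ ∈ Ioc 0 S, ∀ x, HasDerivAt (fun s => L 4 s x)
      (L 6 τ x / 2 + m * (4 * L 2 τ x * L 4 τ x + 3 * L 3 τ x ^ 2 + L 1 τ x * L 5 τ x)) τ
  cont : ∀ k, ContinuousOn (fun p : ℝ × ℝ => L k p.1 p.2) (Icc 0 S ×ˢ univ)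
  bdd : ∀ k, 1 ≤ k → ∃ C : ℝ, ∀ τ ∈ Icc 0 S, ∀ x, |L k τ x| ≤ C
  par : ∀ k, ∀ τ ∈ Icc 0 S, ∀ x, L k τ (-x) = (-1) ^ k * L k τ x

/-- **comparison on the half line for functions bounded below**: diffusion `1/2`, drift with `B x ≤ B0 (1 + x²)` (the singular
drift `-v/r` is allowed), zeroth order coefficient bounded above, `u ≥ 0` at `τ = 0` and at `x = 0`. -/
theorem fsb_cmp {u ut ux uxx B c : ℝ → ℝ → ℝ} {S C B0 K : ℝ}
    (hcont : ContinuousOn (fun p : ℝ × ℝ => u p.1 p.2) (Icc 0 S ×ˢ Ici 0))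
    (ht : ∀ t ∈ Ioc 0 S, ∀ x ∈ Ioi (0 : ℝ), HasDerivAt (fun s => u s x) (ut t x) t)
    (hx : ∀ t ∈ Ioc 0 S, ∀ x ∈ Ioi (0 : ℝ), HasDerivAt (fun y => u t y) (ux t x) x)
    (hxx : ∀ t ∈ Ioc 0 S, ∀ x ∈ Ioi (0 : ℝ), HasDerivAt (fun y => ux t y) (uxx t x) x)
    (hc : ∀ t ∈ Ioc 0 S, ∀ x ∈ Ioi (0 : ℝ), c t x ≤ C)
    (hB : ∀ t ∈ Ioc 0 S, ∀ x ∈ Ioi (0 : ℝ), B t x * x ≤ B0 * (1 + x ^ 2))
    (hpde : ∀ t ∈ Ioc 0 S, ∀ x ∈ Ioi (0 : ℝ), 0 ≤ ut t x - 1 / 2 * uxx t x - B t x * ux t x - c t x * u t x)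
    (hinit : ∀ x ∈ Ioi (0 : ℝ), 0 ≤ u 0 x)
    (hzero : ∀ t ∈ Icc 0 S, 0 ≤ u t 0)
    (hlow : ∀ t ∈ Icc 0 S, ∀ x ∈ Ioi (0 : ℝ), -K ≤ u t x) :
    ∀ t ∈ Icc 0 S, ∀ x ∈ Ioi (0 : ℝ), 0 ≤ u t x := by
  set μ : ℝ := 1 + 2 * |B0| + |C| with hμ
  have hμ0 : 0 ≤ μ := by positivity
  -- the perturbed function
  have key : ∀ δ : ℝ, 0 < δ → ∀ t ∈ Icc 0 S, ∀ x ∈ Ioi (0 : ℝ),
      0 ≤ u t x + δ * ((1 + x ^ 2) * Real.exp (μ * t)) := by
    intro δ hδ
    have hbc : Continuous (fun p : ℝ × ℝ => δ * ((1 + p.2 ^ 2) * Real.exp (μ * p.1))) := by fun_prop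
    have hpos : ∀ t x : ℝ, 0 ≤ δ * ((1 + x ^ 2) * Real.exp (μ * t)) := fun t x => by positivity
    refine sc_mp_punctured (u := fun t x => u t x + δ * ((1 + x ^ 2) * Real.exp (μ * t)))
      (ut := fun t x => ut t x + δ * ((1 + x ^ 2) * (Real.exp (μ * t) * μ)))
      (ux := fun t x => ux t x + δ * ((2 * x) * Real.exp (μ * t)))
      (uxx := fun t x => uxx t x + δ * (2 * Real.exp (μ * t)))
      (A := fun _ _ => 1 / 2) (B := B) (c := c) (C := C) ?_ ?_ ?_ ?_ ?_ hc ?_ ?_ ?_ ?_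
    · exact (hcont.mono (prod_mono_right Ioi_subset_Ici_self)).add hbc.continuousOn
    · intro t htt x hxx'
      refine ((ht t htt x hxx').add ?_).hasDerivWithinAt
      have h1 : HasDerivAt (fun s : ℝ => Real.exp (μ * s)) (Real.exp (μ * t) * μ) t := by
        simpa using ((hasDerivAt_id t).const_mul μ).exp
      exact (h1.const_mul (1 + x ^ 2)).const_mul δ
    · intro t htt x hxx'
      refine (hx t htt x hxx').add ?_
      have h1 : HasDerivAt (fun y : ℝ => 1 + y ^ 2) (2 * x) x := by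
        simpa using ((hasDerivAt_id x).pow 2).const_add 1
      exact (h1.mul_const _).const_mul δ
    · intro t htt x hxx'
      refine (hxx t htt x hxx').add ?_
      have h1 : HasDerivAt (fun y : ℝ => 2 * y) 2 x := by
        simpa using (hasDerivAt_id x).const_mul 2
      exact (h1.mul_const _).const_mul δ
    · intro _ _ _ _; norm_num
    · intro t htt x hxx'
      have h1 := hpde t htt x hxx'
      have h2 := hB t htt x hxx'
      have h3 := hc t htt x hxx'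
      have he : 0 < Real.exp (μ * t) := Real.exp_pos _
      have hq : 0 ≤ μ * (1 + x ^ 2) - 1 - 2 * (B t x * x) - c t x * (1 + x ^ 2) := by
        have a1 : B0 ≤ |B0| := le_abs_self _
        have a2 : C ≤ |C| := le_abs_self _
        have a3 : 0 < 1 + x ^ 2 := by positivity
        have a4 : c t x * (1 + x ^ 2) ≤ |C| * (1 + x ^ 2) := mul_le_mul_of_nonneg_right (h3.trans a2) a3.le
        have a5 : B0 * (1 + x ^ 2) ≤ |B0| * (1 + x ^ 2) := mul_le_mul_of_nonneg_right a1 a3.le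
        have a6 : μ * (1 + x ^ 2) = (1 + x ^ 2) + 2 * (|B0| * (1 + x ^ 2)) + |C| * (1 + x ^ 2) := by rw [hμ]; ring
        nlinarith [sq_nonneg x]
      have hq2 : 0 ≤ δ * Real.exp (μ * t) * (μ * (1 + x ^ 2) - 1 - 2 * (B t x * x) - c t x * (1 + x ^ 2)) := by positivity
      nlinarith
    · intro x hxx'
      have := hinit x hxx'
      have := hpos 0 x
      linarith
    · intro ε hε
      refine sc_mp_lateral_of_continuousOn (x0 := 0) (x1 := 1) one_pos ?_ ?_ ε hε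
      · exact (hcont.mono (prod_mono_right Icc_subset_Ici_self)).add hbc.continuousOn
      · intro t htt
        have := hzero t htt
        have := hpos t 0
        linarith
    · intro ε hε
      have hev : ∀ᶠ R : ℝ in atTop, K ≤ δ * (1 + R ^ 2) := by
        have : Tendsto (fun R : ℝ => δ * (1 + R ^ 2)) atTop atTop := by
          refine Tendsto.const_mul_atTop hδ ?_
          exact tendsto_atTop_add_const_left _ _ (tendsto_pow_atTop (by norm_num))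
        exact this.eventually_ge_atTop K
      filter_upwards [hev, eventually_gt_atTop 0] with R hR hR0 t htt
      have h1 := hlow t htt R hR0
      have h2 : 1 ≤ Real.exp (μ * t) := Real.one_le_exp (mul_nonneg hμ0 htt.1)
      have h3 : δ * (1 + R ^ 2) ≤ δ * ((1 + R ^ 2) * Real.exp (μ * t)) := by
        have : 0 ≤ δ * (1 + R ^ 2) := by positivity
        nlinarith
      linarith
  intro t htt x hxx'
  by_contra hneg
  rw [not_le] at hneg
  have hE : 0 < (1 + x ^ 2) * Real.exp (μ * t) := by positivity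
  have := key (-(u t x) / (2 * ((1 + x ^ 2) * Real.exp (μ * t)))) (by
    apply div_pos <;> linarith) t htt x hxx'
  have e : -(u t x) / (2 * ((1 + x ^ 2) * Real.exp (μ * t))) * ((1 + x ^ 2) * Real.exp (μ * t)) = -(u t x) / 2 := by
    field_simp
  rw [e] at this
  linarith

/-! ## the sign theorems on the abstract jets -/

section abs

variable {m S : ℝ} {L : ℕ → ℝ → ℝ → ℝ}

theorem fsb_jet_odd_zero (h : FsJet m S L) {k : ℕ} (hk : Odd k) {τ : ℝ} (hτ : τ ∈ Icc 0 S) : L k τ 0 = 0 := by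
  have := h.par k τ hτ 0
  rw [hk.neg_one_pow, neg_zero] at this
  linarith

theorem fsb_jet_contOn (h : FsJet m S L) (k : ℕ) :
    ContinuousOn (fun p : ℝ × ℝ => L k p.1 p.2) (Icc 0 S ×ˢ Ici 0) :=
  (h.cont k).mono (prod_mono_right (subset_univ _))

theorem fsb_abs_x_le (x : ℝ) : |x| ≤ 1 + x ^ 2 := by
  rcases abs_cases x with ⟨h, _⟩ | ⟨h, _⟩ <;> rw [h] <;> nlinarith [sq_nonneg (x - 1), sq_nonneg (x + 1)]

/-- the drift `m r` is admissible -/
theorem fsb_drift_le (hm : 0 ≤ m) {C1 a x : ℝ} (ha : |a| ≤ C1) : m * a * x ≤ m * C1 * (1 + x ^ 2) := by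
  have h1 : a * x ≤ |a| * |x| := by rw [← abs_mul]; exact le_abs_self _
  have h2 : |a| * |x| ≤ C1 * (1 + x ^ 2) :=
    mul_le_mul ha (fsb_abs_x_le x) (abs_nonneg _) ((abs_nonneg _).trans ha)
  have := mul_le_mul_of_nonneg_left (h1.trans h2) hm
  linarith

/-- `r > 0` on `x > 0` -/
theorem fsb_abs_r (h : FsJet m S L) (hv : ∀ τ ∈ Icc 0 S, ∀ x, 0 < L 2 τ x) :
    ∀ τ ∈ Icc 0 S, ∀ x ∈ Ioi (0 : ℝ), 0 < L 1 τ x := by
  intro τ hτ x hx
  have hmono : StrictMono (fun y => L 1 τ y) := by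
    apply strictMono_of_deriv_pos
    intro y
    rw [(h.dx 1 τ hτ y).deriv]
    exact hv τ hτ y
  have := hmono hx
  simpa [fsb_jet_odd_zero h (by decide : Odd 1) hτ] using this

/-- `w ≤ 0` on `x > 0` -/
theorem fsb_abs_w (hm : 0 ≤ m) (h : FsJet m S L) (hw : ∀ x ∈ Ioi (0 : ℝ), L 3 0 x ≤ 0) :
    ∀ τ ∈ Icc 0 S, ∀ x ∈ Ioi (0 : ℝ), L 3 τ x ≤ 0 := by
  obtain ⟨C1, hC1⟩ := h.bdd 1 le_rfl
  obtain ⟨C2, hC2⟩ := h.bdd 2 (by norm_num)
  obtain ⟨C3, hC3⟩ := h.bdd 3 (by norm_num)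
  have key := fsb_cmp (u := fun τ x => - L 3 τ x)
    (ut := fun τ x => -(L 5 τ x / 2 + m * (3 * L 2 τ x * L 3 τ x + L 1 τ x * L 4 τ x)))
    (ux := fun τ x => - L 4 τ x) (uxx := fun τ x => - L 5 τ x)
    (B := fun τ x => m * L 1 τ x) (c := fun τ x => 3 * m * L 2 τ x) (S := S) (C := 3 * m * C2) (B0 := m * C1) (K := C3)
    (fsb_jet_contOn h 3).neg
    (fun t ht x _ => (h.dt3 t ht x).neg)
    (fun t ht x _ => (h.dx 3 t (Ioc_subset_Icc_self ht) x).neg)
    (fun t ht x _ => (h.dx 4 t (Ioc_subset_Icc_self ht) x).neg)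
    (fun t ht x _ => by
      have := (abs_le.mp (hC2 t (Ioc_subset_Icc_self ht) x)).2
      have := mul_le_mul_of_nonneg_left this hm
      linarith)
    (fun t ht x _ => fsb_drift_le hm (hC1 t (Ioc_subset_Icc_self ht) x))
    (fun t ht x _ => le_of_eq (by ring))
    (fun x hx => by have := hw x hx; linarith)
    (fun t ht => by rw [fsb_jet_odd_zero h (by decide : Odd 3) ht]; simp)
    (fun t ht x _ => by have := (abs_le.mp (hC3 t ht x)).2; linarith)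
  intro τ hτ x hx
  have := key τ hτ x hx
  linarith

/-- `Y = w + 2 m r v ≤ 0` on `x > 0` -/
theorem fsb_abs_y (hm : 0 ≤ m) (h : FsJet m S L)
    (hy : ∀ x ∈ Ioi (0 : ℝ), L 3 0 x + 2 * m * (L 1 0 x * L 2 0 x) ≤ 0) :
    ∀ τ ∈ Icc 0 S, ∀ x ∈ Ioi (0 : ℝ), L 3 τ x + 2 * m * (L 1 τ x * L 2 τ x) ≤ 0 := by
  obtain ⟨C1, hC1⟩ := h.bdd 1 le_rfl
  obtain ⟨C2, hC2⟩ := h.bdd 2 (by norm_num)
  obtain ⟨C3, hC3⟩ := h.bdd 3 (by norm_num)
  have key := fsb_cmp (u := fun τ x => -(L 3 τ x + 2 * m * (L 1 τ x * L 2 τ x)))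
    (ut := fun τ x => -((L 5 τ x / 2 + m * (3 * L 2 τ x * L 3 τ x + L 1 τ x * L 4 τ x))
      + 2 * m * ((L 3 τ x / 2 + m * (L 1 τ x * L 2 τ x)) * L 2 τ x
        + L 1 τ x * (L 4 τ x / 2 + m * (L 2 τ x ^ 2 + L 1 τ x * L 3 τ x)))))
    (ux := fun τ x => -(L 4 τ x + 2 * m * (L 2 τ x * L 2 τ x + L 1 τ x * L 3 τ x)))
    (uxx := fun τ x => -(L 5 τ x + 2 * m * ((L 3 τ x * L 2 τ x + L 2 τ x * L 3 τ x)
      + (L 2 τ x * L 3 τ x + L 1 τ x * L 4 τ x))))
    (B := fun τ x => m * L 1 τ x) (c := fun τ x => m * L 2 τ x) (S := S) (C := m * C2) (B0 := m * C1)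
    (K := C3 + 2 * m * (C1 * C2))
    ((fsb_jet_contOn h 3).add (continuousOn_const.mul ((fsb_jet_contOn h 1).mul (fsb_jet_contOn h 2)))).neg
    (fun t ht x _ => ((h.dt3 t ht x).add (((h.dt1 t ht x).mul (h.dt2 t ht x)).const_mul (2 * m))).neg)
    (fun t ht x _ => by
      have ht' := Ioc_subset_Icc_self ht
      exact ((h.dx 3 t ht' x).add (((h.dx 1 t ht' x).mul (h.dx 2 t ht' x)).const_mul (2 * m))).neg)
    (fun t ht x _ => by
      have ht' := Ioc_subset_Icc_self ht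
      exact ((h.dx 4 t ht' x).add ((((h.dx 2 t ht' x).mul (h.dx 2 t ht' x)).add
        ((h.dx 1 t ht' x).mul (h.dx 3 t ht' x))).const_mul (2 * m))).neg)
    (fun t ht x _ => mul_le_mul_of_nonneg_left (abs_le.mp (hC2 t (Ioc_subset_Icc_self ht) x)).2 hm)
    (fun t ht x _ => fsb_drift_le hm (hC1 t (Ioc_subset_Icc_self ht) x))
    (fun t ht x _ => le_of_eq (by ring))
    (fun x hx => by have := hy x hx; linarith)
    (fun t ht => by
      rw [fsb_jet_odd_zero h (by decide : Odd 3) ht, fsb_jet_odd_zero h (by decide : Odd 1) ht]; simp)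
    (fun t ht x _ => by
      have h3 := (abs_le.mp (hC3 t ht x)).2
      have h12 : L 1 t x * L 2 t x ≤ C1 * C2 := by
        have e1 : L 1 t x * L 2 t x ≤ |L 1 t x| * |L 2 t x| := by rw [← abs_mul]; exact le_abs_self _
        exact e1.trans (mul_le_mul (hC1 t ht x) (hC2 t ht x) (abs_nonneg _) ((abs_nonneg _).trans (hC1 t ht x)))
      have := mul_le_mul_of_nonneg_left h12 hm
      linarith)
  intro τ hτ x hx
  have := key τ hτ x hx
  linarith

theorem fsb_mul_abs_le {a b A B : ℝ} (ha : |a| ≤ A) (hb : |b| ≤ B) : |a * b| ≤ A * B := by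
  rw [abs_mul]
  exact mul_le_mul ha hb (abs_nonneg _) ((abs_nonneg _).trans ha)

/-- `Q = r z - v w + 2 m r² w ≥ 0` on `x > 0` -/
theorem fsb_abs_q (hm : 0 ≤ m) (h : FsJet m S L) (hv : ∀ τ ∈ Icc 0 S, ∀ x, 0 < L 2 τ x)
    (hw : ∀ x ∈ Ioi (0 : ℝ), L 3 0 x ≤ 0)
    (hy : ∀ x ∈ Ioi (0 : ℝ), L 3 0 x + 2 * m * (L 1 0 x * L 2 0 x) ≤ 0)
    (hq : ∀ x ∈ Ioi (0 : ℝ), 0 ≤ L 1 0 x * L 4 0 x - L 2 0 x * L 3 0 x + 2 * m * (L 1 0 x ^ 2 * L 3 0 x)) :
    ∀ τ ∈ Icc 0 S, ∀ x ∈ Ioi (0 : ℝ),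
      0 ≤ L 1 τ x * L 4 τ x - L 2 τ x * L 3 τ x + 2 * m * (L 1 τ x ^ 2 * L 3 τ x) := by
  obtain ⟨C1, hC1⟩ := h.bdd 1 le_rfl
  obtain ⟨C2, hC2⟩ := h.bdd 2 (by norm_num)
  obtain ⟨C3, hC3⟩ := h.bdd 3 (by norm_num)
  obtain ⟨C4, hC4⟩ := h.bdd 4 (by norm_num)
  have hR := fsb_abs_r h hv
  have hW := fsb_abs_w hm h hw
  have hY := fsb_abs_y hm h hy
  refine fsb_cmp (u := fun τ x => L 1 τ x * L 4 τ x - L 2 τ x * L 3 τ x + 2 * m * (L 1 τ x ^ 2 * L 3 τ x))
    (ut := fun τ x => (L 3 τ x / 2 + m * (L 1 τ x * L 2 τ x)) * L 4 τ x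
      + L 1 τ x * (L 6 τ x / 2 + m * (4 * L 2 τ x * L 4 τ x + 3 * L 3 τ x ^ 2 + L 1 τ x * L 5 τ x))
      - ((L 4 τ x / 2 + m * (L 2 τ x ^ 2 + L 1 τ x * L 3 τ x)) * L 3 τ x
        + L 2 τ x * (L 5 τ x / 2 + m * (3 * L 2 τ x * L 3 τ x + L 1 τ x * L 4 τ x)))
      + 2 * m * (2 * L 1 τ x * (L 3 τ x / 2 + m * (L 1 τ x * L 2 τ x)) * L 3 τ x
        + L 1 τ x ^ 2 * (L 5 τ x / 2 + m * (3 * L 2 τ x * L 3 τ x + L 1 τ x * L 4 τ x))))
    (ux := fun τ x => L 1 τ x * L 5 τ x - L 3 τ x * L 3 τ x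
      + 2 * m * (2 * (L 1 τ x * L 2 τ x * L 3 τ x) + L 1 τ x ^ 2 * L 4 τ x))
    (uxx := fun τ x => L 2 τ x * L 5 τ x + L 1 τ x * L 6 τ x - 2 * (L 3 τ x * L 4 τ x)
      + 2 * m * (2 * (L 2 τ x * L 2 τ x * L 3 τ x + L 1 τ x * L 3 τ x * L 3 τ x + L 1 τ x * L 2 τ x * L 4 τ x)
        + (2 * L 1 τ x * L 2 τ x * L 4 τ x + L 1 τ x ^ 2 * L 5 τ x)))
    (B := fun τ x => m * L 1 τ x - L 2 τ x / L 1 τ x) (c := fun τ x => L 3 τ x / L 1 τ x + 2 * m * L 2 τ x)
    (S := S) (C := 2 * m * C2) (B0 := m * C1) (K := C1 * C4 + C2 * C3 + 2 * m * (C1 ^ 2 * C3))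
    ?_ ?_ ?_ ?_ ?_ ?_ ?_ hq ?_ ?_
  · exact (((fsb_jet_contOn h 1).mul (fsb_jet_contOn h 4)).sub ((fsb_jet_contOn h 2).mul (fsb_jet_contOn h 3))).add
      (continuousOn_const.mul (((fsb_jet_contOn h 1).pow 2).mul (fsb_jet_contOn h 3)))
  · intro t ht x _
    have := (((h.dt1 t ht x).mul (h.dt4 t ht x)).sub ((h.dt2 t ht x).mul (h.dt3 t ht x))).add
      ((((h.dt1 t ht x).pow 2).mul (h.dt3 t ht x)).const_mul (2 * m))
    refine this.congr_deriv ?_
    simp only [Nat.cast_ofNat, Nat.add_one_sub_one, pow_one, Pi.pow_apply]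
  · intro t ht x _
    have ht' := Ioc_subset_Icc_self ht
    have := (((h.dx 1 t ht' x).mul (h.dx 4 t ht' x)).sub ((h.dx 2 t ht' x).mul (h.dx 3 t ht' x))).add
      ((((h.dx 1 t ht' x).pow 2).mul (h.dx 3 t ht' x)).const_mul (2 * m))
    refine this.congr_deriv ?_
    simp only [Nat.cast_ofNat, Nat.add_one_sub_one, pow_one, Pi.pow_apply]
    ring
  · intro t ht x _
    have ht' := Ioc_subset_Icc_self ht
    have := (((h.dx 1 t ht' x).mul (h.dx 5 t ht' x)).sub ((h.dx 3 t ht' x).mul (h.dx 3 t ht' x))).add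
      ((((((h.dx 1 t ht' x).mul (h.dx 2 t ht' x)).mul (h.dx 3 t ht' x)).const_mul 2).add
        (((h.dx 1 t ht' x).pow 2).mul (h.dx 4 t ht' x))).const_mul (2 * m))
    refine this.congr_deriv ?_
    simp only [Nat.cast_ofNat, Nat.add_one_sub_one, pow_one, Pi.pow_apply, Pi.mul_apply]
    ring
  · intro t ht x hx
    have ht' := Ioc_subset_Icc_self ht
    have h1 : L 3 t x / L 1 t x ≤ 0 := div_nonpos_of_nonpos_of_nonneg (hW t ht' x hx) (hR t ht' x hx).le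
    have h2 := mul_le_mul_of_nonneg_left (abs_le.mp (hC2 t ht' x)).2 hm
    linarith
  · intro t ht x hx
    have ht' := Ioc_subset_Icc_self ht
    have h1 := fsb_drift_le (x := x) hm (hC1 t ht' x)
    have h2 : 0 ≤ L 2 t x / L 1 t x * x := mul_nonneg (div_nonneg (hv t ht' x).le (hR t ht' x hx).le) (le_of_lt hx)
    have e : (m * L 1 t x - L 2 t x / L 1 t x) * x = m * L 1 t x * x - L 2 t x / L 1 t x * x := by ring
    rw [e]
    linarith
  · intro t ht x hx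
    have ht' := Ioc_subset_Icc_self ht
    have hr := hR t ht' x hx
    have hr' := hr.ne'
    have hsrc : 0 ≤ m * L 1 t x * (L 3 t x * (L 3 t x + 2 * m * (L 1 t x * L 2 t x))) :=
      mul_nonneg (mul_nonneg hm hr.le) (mul_nonneg_of_nonpos_of_nonpos (hW t ht' x hx) (hY t ht' x hx))
    refine hsrc.trans (le_of_eq ?_)
    field_simp
    ring
  · intro t ht
    rw [fsb_jet_odd_zero h (by decide : Odd 3) ht, fsb_jet_odd_zero h (by decide : Odd 1) ht]; simp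
  · intro t ht x _
    have h14 := (abs_le.mp (fsb_mul_abs_le (hC1 t ht x) (hC4 t ht x))).1
    have h23 := (abs_le.mp (fsb_mul_abs_le (hC2 t ht x) (hC3 t ht x))).2
    have h11 : |L 1 t x ^ 2| ≤ C1 ^ 2 := by
      rw [abs_pow]; exact pow_le_pow_left₀ (abs_nonneg _) (hC1 t ht x) 2
    have h113 := (abs_le.mp (fsb_mul_abs_le h11 (hC3 t ht x))).1
    have := mul_le_mul_of_nonneg_left h113 hm
    linarith

/-- **the three signs are propagated by the flow** -/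
theorem fsb_abs (hm : 0 ≤ m) (h : FsJet m S L) (hv : ∀ τ ∈ Icc 0 S, ∀ x, 0 < L 2 τ x)
    (hw : ∀ x, 0 < x → L 3 0 x ≤ 0)
    (hy : ∀ x, 0 < x → L 3 0 x + 2 * m * (L 1 0 x * L 2 0 x) ≤ 0)
    (hq : ∀ x, 0 < x → 0 ≤ L 1 0 x * L 4 0 x - L 2 0 x * L 3 0 x + 2 * m * (L 1 0 x ^ 2 * L 3 0 x))
    {τ : ℝ} (hτ : τ ∈ Icc 0 S) {x : ℝ} (hx : 0 < x) :
    L 3 τ x ≤ 0 ∧ L 3 τ x + 2 * m * (L 1 τ x * L 2 τ x) ≤ 0 ∧
      0 ≤ L 1 τ x * L 4 τ x - L 2 τ x * L 3 τ x + 2 * m * (L 1 τ x ^ 2 * L 3 τ x) :=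
  ⟨fsb_abs_w hm h hw τ hτ x hx, fsb_abs_y hm h hy τ hτ x hx, fsb_abs_q hm h hv hw hy hq τ hτ x hx⟩

end abs

/-! ## jets of functions of the bounded class -/

theorem fsb_B_iter {n : ℕ} (k : ℕ) {F : ℝ → ℝ} (h : ScB (n + k) F) : ScB n (deriv^[k] F) := by
  induction k generalizing F with
  | zero => exact h
  | succ k ih => exact ih (F := deriv F) h.2.2

theorem fsb_iter_hasDerivAt {F : ℝ → ℝ} (h : ∀ n, ScB n F) (k : ℕ) (x : ℝ) :
    HasDerivAt (deriv^[k] F) (deriv^[k + 1] F x) x := by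
  have h1 : ScB 1 (deriv^[k] F) := fsb_B_iter k (h (1 + k))
  rw [Function.iterate_succ_apply']
  exact (h1.1 x).hasDerivAt

theorem fsb_T_iter {I : Set ℝ} {n : ℕ} (k : ℕ) {ψ : ℝ → ℝ → ℝ} (h : ScT I (n + k) ψ) :
    ScT I n (fun r => deriv^[k] (ψ r)) := by
  induction k generalizing ψ with
  | zero => exact h
  | succ k ih => exact ih (ψ := fun r => deriv (ψ r)) h.2.2.2

theorem fsb_iter_par {F : ℝ → ℝ} (h : ∀ x, F (-x) = F x) (k : ℕ) (x : ℝ) :
    deriv^[k] F (-x) = (-1) ^ k * deriv^[k] F x := by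
  induction k generalizing x with
  | zero => simp [h]
  | succ k ih =>
    rw [Function.iterate_succ_apply']
    have e : (fun y => deriv^[k] F (-y)) = fun y => (-1) ^ k * deriv^[k] F y := funext ih
    have h1 : deriv (fun y => deriv^[k] F (-y)) x = - deriv (deriv^[k] F) (-x) := deriv_comp_neg _ _
    rw [e, deriv_const_mul_field] at h1
    rw [pow_succ]
    linarith

theorem fsb_step_cls {F : ℝ → ℝ} (h : ∀ n, ScB n F) (m s : ℝ) (n : ℕ) : ScB n (scStep m s F) :=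
  (sc_step_B (h (n + 1)) m s).of_succ

/-- the `x`-derivatives of the right side of the Parisi PDE -/
theorem fsb_expand {j : ℕ → ℝ → ℝ} (hj : ∀ k x, HasDerivAt (j k) (j (k + 1) x) x) (m : ℝ) :
    deriv^[1] (fun y => -(j 2 y + m * j 1 y ^ 2) / 2) = (fun y => -(j 3 y / 2 + m * (j 1 y * j 2 y))) ∧
    deriv^[2] (fun y => -(j 2 y + m * j 1 y ^ 2) / 2) = (fun y => -(j 4 y / 2 + m * (j 2 y ^ 2 + j 1 y * j 3 y))) ∧
    deriv^[3] (fun y => -(j 2 y + m * j 1 y ^ 2) / 2)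
      = (fun y => -(j 5 y / 2 + m * (3 * j 2 y * j 3 y + j 1 y * j 4 y))) ∧
    deriv^[4] (fun y => -(j 2 y + m * j 1 y ^ 2) / 2)
      = (fun y => -(j 6 y / 2 + m * (4 * j 2 y * j 4 y + 3 * j 3 y ^ 2 + j 1 y * j 5 y))) := by
  have e1 : deriv (fun y => -(j 2 y + m * j 1 y ^ 2) / 2) = (fun y => -(j 3 y / 2 + m * (j 1 y * j 2 y))) := by
    funext y
    have := (((hj 2 y).add (((hj 1 y).pow 2).const_mul m)).neg).div_const 2
    refine (this.congr_deriv ?_).deriv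
    simp only [Nat.cast_ofNat, Nat.add_one_sub_one, pow_one]
    ring
  have e2 : deriv (fun y => -(j 3 y / 2 + m * (j 1 y * j 2 y)))
      = (fun y => -(j 4 y / 2 + m * (j 2 y ^ 2 + j 1 y * j 3 y))) := by
    funext y
    have := (((hj 3 y).div_const 2).add (((hj 1 y).mul (hj 2 y)).const_mul m)).neg
    refine (this.congr_deriv ?_).deriv
    ring
  have e3 : deriv (fun y => -(j 4 y / 2 + m * (j 2 y ^ 2 + j 1 y * j 3 y)))
      = (fun y => -(j 5 y / 2 + m * (3 * j 2 y * j 3 y + j 1 y * j 4 y))) := by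
    funext y
    have := (((hj 4 y).div_const 2).add ((((hj 2 y).pow 2).add ((hj 1 y).mul (hj 3 y))).const_mul m)).neg
    refine (this.congr_deriv ?_).deriv
    simp only [Nat.cast_ofNat, Nat.add_one_sub_one, pow_one]
    ring
  have e4 : deriv (fun y => -(j 5 y / 2 + m * (3 * j 2 y * j 3 y + j 1 y * j 4 y)))
      = (fun y => -(j 6 y / 2 + m * (4 * j 2 y * j 4 y + 3 * j 3 y ^ 2 + j 1 y * j 5 y))) := by
    funext y
    have := (((hj 5 y).div_const 2).add (((((hj 2 y).const_mul 3).mul (hj 3 y)).add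
      ((hj 1 y).mul (hj 4 y))).const_mul m)).neg
    refine (this.congr_deriv ?_).deriv
    ring
  refine ⟨e1, ?_, ?_, ?_⟩
  · simp only [Function.iterate_succ, Function.iterate_zero, Function.comp_apply, id_eq, e1, e2]
  · simp only [Function.iterate_succ, Function.iterate_zero, Function.comp_apply, id_eq, e1, e2, e3]
  · simp only [Function.iterate_succ, Function.iterate_zero, Function.comp_apply, id_eq, e1, e2, e3, e4]

/-- time derivative of the jets of a step, in the variance `s` -/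
theorem fsb_step_dt {F : ℝ → ℝ} (h : ∀ n, ScB n F) (m : ℝ) (k : ℕ) {τ : ℝ} (hτ : 0 < τ) (x : ℝ) :
    HasDerivAt (fun s => deriv^[k] (scStep m s F) x)
      (-(deriv^[k] (fun y => -(deriv^[2] (scStep m τ F) y + m * deriv^[1] (scStep m τ F) y ^ 2) / 2) x)) τ := by
  have h0 := sc_step_pde_iter k (h (k + 3)) m (t₁ := τ) (r := 0) hτ x
  have h1 : HasDerivAt (fun r => deriv^[k] (scStep m (τ - r) F) x)
      (deriv^[k] (fun y => -(deriv^[2] (scStep m τ F) y + m * deriv^[1] (scStep m τ F) y ^ 2) / 2) x) (τ - τ) := by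
    rw [sub_self]
    simpa using h0
  have h2 := h1.comp_const_sub τ τ
  simpa using h2

/-- **the instance**: the jets of `scStep` -/
theorem fsb_jet {F : ℝ → ℝ} (h : ∀ n, ScB n F) (he : ∀ x, F (-x) = F x) (m S : ℝ) :
    FsJet m S (fun k τ x => deriv^[k] (scStep m τ F) x) := by
  have hj : ∀ τ : ℝ, ∀ k x, HasDerivAt (deriv^[k] (scStep m τ F)) (deriv^[k + 1] (scStep m τ F) x) x :=
    fun τ => fsb_iter_hasDerivAt (fsb_step_cls h m τ)
  refine ⟨fun k τ _ x => hj τ k x, ?_, ?_, ?_, ?_, ?_, ?_, ?_⟩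
  · intro τ hτ x
    have := fsb_step_dt h m 1 hτ.1 x
    rw [(fsb_expand (hj τ) m).1] at this
    simpa using this
  · intro τ hτ x
    have := fsb_step_dt h m 2 hτ.1 x
    rw [(fsb_expand (hj τ) m).2.1] at this
    simpa using this
  · intro τ hτ x
    have := fsb_step_dt h m 3 hτ.1 x
    rw [(fsb_expand (hj τ) m).2.2.1] at this
    simpa using this
  · intro τ hτ x
    have := fsb_step_dt h m 4 hτ.1 x
    rw [(fsb_expand (hj τ) m).2.2.2] at this
    simpa using this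
  · intro k
    have h1 : ScT (Icc 0 S) (0 + k) (fun r => scStep m (S - r) F) := by
      rw [zero_add]
      exact (sc_step_T (h (k + 1)) m 0 S).of_succ
    have h2 : ContinuousOn (fun p : ℝ × ℝ => deriv^[k] (scStep m (S - p.1) F) p.2) (Icc 0 S ×ˢ univ) :=
      (fsb_T_iter k h1).1
    have h3 : ContinuousOn (fun p : ℝ × ℝ => (S - p.1, p.2)) (Icc 0 S ×ˢ univ) := by fun_prop
    have h4 : MapsTo (fun p : ℝ × ℝ => (S - p.1, p.2)) (Icc 0 S ×ˢ univ) (Icc 0 S ×ˢ univ) := by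
      rintro ⟨a, b⟩ ⟨ha, _⟩
      exact ⟨⟨by linarith [ha.2], by linarith [ha.1]⟩, mem_univ _⟩
    have h5 := h2.comp h3 h4
    simpa [Function.comp_def] using h5
  · intro k hk
    exact sc_step_deriv_bdd (h (k + 1)) m S k hk (by omega)
  · intro k τ _ x
    exact fsb_iter_par (sc_step_even he m τ) k x

/-! ## EXITS -/

/-- `r > 0` on `x > 0` -/
theorem FsBI.r_pos {m : ℝ} {F : ℝ → ℝ} (h : FsBI m F) {x : ℝ} (hx : 0 < x) : 0 < deriv^[1] F x := by
  have hmono : StrictMono (deriv^[1] F) := by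
    apply strictMono_of_deriv_pos
    intro y
    rw [(fsb_iter_hasDerivAt h.cls 1 y).deriv]
    exact h.v_pos y
  have h0 : deriv^[1] F 0 = 0 := by
    have := fsb_iter_par h.even 1 0
    simp only [neg_zero, pow_one] at this
    linarith
  have := hmono hx
  rwa [h0] at this

/-- **backward jump**: the invariant is monotone in the mass -/
theorem fsb_mono {m m' : ℝ} {F : ℝ → ℝ} (h : FsBI m F) (hm : m' ≤ m) : FsBI m' F := by
  refine ⟨h.cls, h.even, h.v_pos, h.w_le, ?_, ?_⟩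
  · intro x hx
    have h1 := h.y_le x hx
    have h2 : 0 ≤ deriv^[1] F x * deriv^[2] F x := mul_nonneg (h.r_pos hx).le (h.v_pos x).le
    nlinarith
  · intro x hx
    have h1 := h.q_ge x hx
    have h2 : deriv^[1] F x ^ 2 * deriv^[3] F x ≤ 0 := mul_nonpos_of_nonneg_of_nonpos (sq_nonneg _) (h.w_le x hx)
    nlinarith

/-- **one Cole-Hopf step** -/
theorem fsb_step {m s : ℝ} {F : ℝ → ℝ} (hm : 0 ≤ m) (hs : 0 ≤ s) (h : FsBI m F) : FsBI m (scStep m s F) := by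
  have hJ := fsb_jet h.cls h.even m s
  have hv : ∀ τ ∈ Icc 0 s, ∀ x, 0 < deriv^[2] (scStep m τ F) x :=
    fun τ _ x => sc_step_strict_convex (h.cls 2) h.v_pos hm τ x
  have key := fun x (hx : 0 < x) => fsb_abs hm hJ hv
    (by simpa only [sc_step_var_zero] using h.w_le) (by simpa only [sc_step_var_zero] using h.y_le)
    (by simpa only [sc_step_var_zero] using h.q_ge) (right_mem_Icc.mpr hs) hx
  exact ⟨fsb_step_cls h.cls m s, sc_step_even h.even m s, hv s (right_mem_Icc.mpr hs),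
    fun x hx => (key x hx).1, fun x hx => (key x hx).2.1, fun x hx => (key x hx).2.2⟩

theorem fsb_tanh_hasDerivAt (a z : ℝ) :
    HasDerivAt (fun y => Real.tanh (a * y)) (a * (1 - Real.tanh (a * z) ^ 2)) z := by
  have hc : Real.cosh (a * z) ≠ 0 := (Real.cosh_pos _).ne'
  have h1 : HasDerivAt (fun y : ℝ => a * y) a z := by simpa using (hasDerivAt_id z).const_mul a
  have h2 := (h1.sinh).div (h1.cosh) hc
  have e : (fun y => Real.tanh (a * y)) = fun y => Real.sinh (a * y) / Real.cosh (a * y) :=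
    funext fun y => Real.tanh_eq_sinh_div_cosh _
  rw [e]
  refine h2.congr_deriv ?_
  rw [Real.tanh_eq_sinh_div_cosh]
  field_simp

/-- the first four derivatives of `a⁻¹ log cosh (a z)` -/
theorem fsb_logcosh_jets {a : ℝ} (ha : a ≠ 0) :
    deriv^[1] (fun z => a⁻¹ * Real.log (Real.cosh (a * z))) = (fun z => Real.tanh (a * z)) ∧
    deriv^[2] (fun z => a⁻¹ * Real.log (Real.cosh (a * z))) = (fun z => a * (1 - Real.tanh (a * z) ^ 2)) ∧
    deriv^[3] (fun z => a⁻¹ * Real.log (Real.cosh (a * z)))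
      = (fun z => -2 * a ^ 2 * (Real.tanh (a * z) * (1 - Real.tanh (a * z) ^ 2))) ∧
    deriv^[4] (fun z => a⁻¹ * Real.log (Real.cosh (a * z)))
      = (fun z => -2 * a ^ 3 * ((1 - Real.tanh (a * z) ^ 2) * (1 - 3 * Real.tanh (a * z) ^ 2))) := by
  have e1 : deriv (fun z => a⁻¹ * Real.log (Real.cosh (a * z))) = (fun z => Real.tanh (a * z)) := by
    funext z
    have hc : Real.cosh (a * z) ≠ 0 := (Real.cosh_pos _).ne'
    have h1 : HasDerivAt (fun y : ℝ => a * y) a z := by simpa using (hasDerivAt_id z).const_mul a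
    have := ((h1.cosh).log hc).const_mul a⁻¹
    refine (this.congr_deriv ?_).deriv
    rw [Real.tanh_eq_sinh_div_cosh]
    field_simp
  have e2 : deriv (fun z => Real.tanh (a * z)) = (fun z => a * (1 - Real.tanh (a * z) ^ 2)) :=
    funext fun z => (fsb_tanh_hasDerivAt a z).deriv
  have e3 : deriv (fun z => a * (1 - Real.tanh (a * z) ^ 2))
      = (fun z => -2 * a ^ 2 * (Real.tanh (a * z) * (1 - Real.tanh (a * z) ^ 2))) := by
    funext z
    have := (((fsb_tanh_hasDerivAt a z).pow 2).const_sub 1).const_mul a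
    refine (this.congr_deriv ?_).deriv
    simp only [Nat.cast_ofNat, Nat.add_one_sub_one, pow_one]
    ring
  have e4 : deriv (fun z => -2 * a ^ 2 * (Real.tanh (a * z) * (1 - Real.tanh (a * z) ^ 2)))
      = (fun z => -2 * a ^ 3 * ((1 - Real.tanh (a * z) ^ 2) * (1 - 3 * Real.tanh (a * z) ^ 2))) := by
    funext z
    have := ((fsb_tanh_hasDerivAt a z).mul (((fsb_tanh_hasDerivAt a z).pow 2).const_sub 1)).const_mul (-2 * a ^ 2)
    refine (this.congr_deriv ?_).deriv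
    simp only [Nat.cast_ofNat, Nat.add_one_sub_one, pow_one, Pi.pow_apply]
    ring
  refine ⟨e1, ?_, ?_, ?_⟩
  · simp only [Function.iterate_succ, Function.iterate_zero, Function.comp_apply, id_eq, e1, e2]
  · simp only [Function.iterate_succ, Function.iterate_zero, Function.comp_apply, id_eq, e1, e2, e3]
  · simp only [Function.iterate_succ, Function.iterate_zero, Function.comp_apply, id_eq, e1, e2, e3, e4]

/-- **terminal datum** `a⁻¹ log cosh (a z)`, any mass `m ≤ a` -/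
theorem fsb_term {a m : ℝ} (ha : 0 < a) (hm : m ≤ a) : FsBI m (fun z => a⁻¹ * Real.log (Real.cosh (a * z))) := by
  obtain ⟨e1, e2, e3, e4⟩ := fsb_logcosh_jets ha.ne'
  have hS : ∀ z : ℝ, 0 < 1 - Real.tanh (a * z) ^ 2 := fun z => by
    have := Real.tanh_sq_lt_one (a * z); linarith
  have hT : ∀ z : ℝ, 0 < z → 0 < Real.tanh (a * z) := fun z hz => by
    rw [Real.tanh_eq_sinh_div_cosh]
    exact div_pos (Real.sinh_pos_iff.mpr (mul_pos ha hz)) (Real.cosh_pos _)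
  refine ⟨fun n => sc_logcosh_B n a, fun x => by simp, ?_, ?_, ?_, ?_⟩
  · intro x
    rw [e2]
    exact mul_pos ha (hS x)
  · intro x hx
    rw [e3]
    have : 0 ≤ a ^ 2 * (Real.tanh (a * x) * (1 - Real.tanh (a * x) ^ 2)) :=
      mul_nonneg (sq_nonneg _) (mul_nonneg (hT x hx).le (hS x).le)
    simp only
    linarith
  · intro x hx
    rw [e1, e2, e3]
    have h1 : 0 ≤ a * (Real.tanh (a * x) * (1 - Real.tanh (a * x) ^ 2)) * (a - m) :=
      mul_nonneg (mul_nonneg ha.le (mul_nonneg (hT x hx).le (hS x).le)) (by linarith)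
    simp only
    nlinarith
  · intro x hx
    rw [e1, e2, e3, e4]
    have h1 : 0 ≤ a ^ 2 * (Real.tanh (a * x) ^ 3 * (1 - Real.tanh (a * x) ^ 2)) * (a - m) :=
      mul_nonneg (mul_nonneg (sq_nonneg _) (mul_nonneg (pow_pos (hT x hx) 3).le (hS x).le)) (by linarith)
    simp only
    nlinarith

end Claimed.Agent.R286
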