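import Claimed.Agent.R286.Sc.HeatT

/-!
# Row 286, BOX-C, forward factor: the Gaussian bridge identity      (OWNER helper230)

`γ = gaussianReal 0 1`.
* `fsb_rot_integral`, `fsb_rot_integrable`: the reflection `(p,q) ↦ (c p + s q, s p - c q)`, `c² + s² = 1`, preserves `γ ⊗ γ`.
* `fsb_bridge`: for `X = z + √a Z₁`, `S = X + √h Z₂`:  `E[Φ(S) G(X)] = E[Φ(S) E[G(X) | S]]`, with
  `X | S ~ N((a S + h z)/(a+h), a h/(a+h))`, written with `scHeat` only:
  `scHeat a (scHeat h Φ * G) z = scHeat (a+h) (Φ * [s ↦ scHeat (a h/(a+h)) G ((a s + h z)/(a+h))]) z`.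
-/

set_option autoImplicit false

namespace Claimed.Agent.R286

open MeasureTheory ProbabilityTheory Filter Topology Set

/-! ## rotation invariance of `γ ⊗ γ` -/

theorem fsb_charFunDual_gauss (L : StrongDual ℝ ℝ) :
    charFunDual (gaussianReal 0 1) L = Complex.exp (-(((L 1) ^ 2 : ℝ) : ℂ) / 2) := by
  rw [charFunDual_eq_charFun_map_one, gaussianReal_map_continuousLinearMap, charFun_gaussianReal]
  congr 1
  simp [max_eq_left (sq_nonneg (L 1))]
  ring

/-- the reflection as a continuous linear map -/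
noncomputable def fsbRotL (c s : ℝ) : ℝ × ℝ →L[ℝ] ℝ × ℝ :=
  (c • ContinuousLinearMap.fst ℝ ℝ ℝ + s • ContinuousLinearMap.snd ℝ ℝ ℝ).prod
    (s • ContinuousLinearMap.fst ℝ ℝ ℝ - c • ContinuousLinearMap.snd ℝ ℝ ℝ)

theorem fsbRotL_apply (c s : ℝ) (p : ℝ × ℝ) :
    fsbRotL c s p = (c * p.1 + s * p.2, s * p.1 - c * p.2) := rfl

/-- The reflection `(p,q) ↦ (c p + s q, s p - c q)` preserves `γ ⊗ γ`. -/
theorem fsb_rot_map (c s : ℝ) (h : c ^ 2 + s ^ 2 = 1) :
    Measure.map (fun p : ℝ × ℝ => (c * p.1 + s * p.2, s * p.1 - c * p.2))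
      ((gaussianReal 0 1).prod (gaussianReal 0 1))
      = (gaussianReal 0 1).prod (gaussianReal 0 1) := by
  have hT : (fun p : ℝ × ℝ => (c * p.1 + s * p.2, s * p.1 - c * p.2)) = ⇑(fsbRotL c s) := by
    funext p; rfl
  rw [hT]
  have : IsProbabilityMeasure (Measure.map (⇑(fsbRotL c s))
      ((gaussianReal 0 1).prod (gaussianReal 0 1))) :=
    Measure.isProbabilityMeasure_map (fsbRotL c s).continuous.aemeasurable
  apply Measure.ext_of_charFunDual
  funext L
  rw [charFunDual_map, charFunDual_prod, charFunDual_prod, fsb_charFunDual_gauss,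
    fsb_charFunDual_gauss, fsb_charFunDual_gauss, fsb_charFunDual_gauss, ← Complex.exp_add,
    ← Complex.exp_add]
  have hL : ∀ p : ℝ × ℝ, L p = p.1 * L (1, 0) + p.2 * L (0, 1) := by
    intro p
    have : p = p.1 • ((1 : ℝ), (0 : ℝ)) + p.2 • ((0 : ℝ), (1 : ℝ)) := by
      ext <;> simp
    conv_lhs => rw [this]
    rw [map_add, map_smul, map_smul]
    simp
  have e1 : ((L.comp (fsbRotL c s)).comp (.inl ℝ ℝ ℝ)) 1 = c * L (1, 0) + s * L (0, 1) := by
    simp only [ContinuousLinearMap.comp_apply, ContinuousLinearMap.inl_apply, fsbRotL_apply]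
    rw [hL]
    simp
  have e2 : ((L.comp (fsbRotL c s)).comp (.inr ℝ ℝ ℝ)) 1 = s * L (1, 0) - c * L (0, 1) := by
    simp only [ContinuousLinearMap.comp_apply, ContinuousLinearMap.inr_apply, fsbRotL_apply]
    rw [hL]
    simp
    ring
  have e3 : (L.comp (.inl ℝ ℝ ℝ)) 1 = L (1, 0) := by simp
  have e4 : (L.comp (.inr ℝ ℝ ℝ)) 1 = L (0, 1) := by simp
  rw [e1, e2, e3, e4]
  congr 1
  have : (c * L (1, 0) + s * L (0, 1)) ^ 2 + (s * L (1, 0) - c * L (0, 1)) ^ 2
      = L (1, 0) ^ 2 + L (0, 1) ^ 2 := by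
    have : (c * L (1, 0) + s * L (0, 1)) ^ 2 + (s * L (1, 0) - c * L (0, 1)) ^ 2
      = (c ^ 2 + s ^ 2) * (L (1, 0) ^ 2 + L (0, 1) ^ 2) := by ring
    rw [this, h, one_mul]
  have h2 := congrArg (fun r : ℝ => -((r : ℝ) : ℂ) / 2) this
  push_cast at h2 ⊢
  linear_combination h2

/-- the reflection as a measurable equivalence -/
noncomputable def fsbRotE (c s : ℝ) (h : c ^ 2 + s ^ 2 = 1) : ℝ × ℝ ≃ᵐ ℝ × ℝ where
  toFun p := (c * p.1 + s * p.2, s * p.1 - c * p.2)
  invFun p := (c * p.1 + s * p.2, s * p.1 - c * p.2)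
  left_inv p := by
    ext
    · simp only
      linear_combination p.1 * h
    · simp only
      linear_combination p.2 * h
  right_inv p := by
    ext
    · simp only
      linear_combination p.1 * h
    · simp only
      linear_combination p.2 * h
  measurable_toFun := by
    change Measurable (fun p : ℝ × ℝ => (c * p.1 + s * p.2, s * p.1 - c * p.2))
    fun_prop
  measurable_invFun := by
    change Measurable (fun p : ℝ × ℝ => (c * p.1 + s * p.2, s * p.1 - c * p.2))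
    fun_prop

/-- generates the equation lemmas of the definitions above in this file (rule 6: unique names) -/
theorem fsb_eqns_cite : True := by
  have := @fsbRotL.eq_1
  have := @fsbRotE.eq_1
  trivial

/-- Integral form (no measurability needed: the reflection is an involution). -/
theorem fsb_rot_integral (c s : ℝ) (h : c ^ 2 + s ^ 2 = 1) (F : ℝ × ℝ → ℝ) :
    ∫ p : ℝ × ℝ, F (c * p.1 + s * p.2, s * p.1 - c * p.2)
        ∂((gaussianReal 0 1).prod (gaussianReal 0 1))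
      = ∫ p, F p ∂((gaussianReal 0 1).prod (gaussianReal 0 1)) := by
  have hmp : MeasurePreserving (fsbRotE c s h) ((gaussianReal 0 1).prod (gaussianReal 0 1))
      ((gaussianReal 0 1).prod (gaussianReal 0 1)) :=
    ⟨(fsbRotE c s h).measurable, fsb_rot_map c s h⟩
  exact hmp.integral_comp' F

/-- integrability is invariant under the reflection -/
theorem fsb_rot_integrable (c s : ℝ) (h : c ^ 2 + s ^ 2 = 1) (F : ℝ × ℝ → ℝ) :
    Integrable (fun p : ℝ × ℝ => F (c * p.1 + s * p.2, s * p.1 - c * p.2))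
        ((gaussianReal 0 1).prod (gaussianReal 0 1))
      ↔ Integrable F ((gaussianReal 0 1).prod (gaussianReal 0 1)) := by
  have hmp : MeasurePreserving (fsbRotE c s h) ((gaussianReal 0 1).prod (gaussianReal 0 1))
      ((gaussianReal 0 1).prod (gaussianReal 0 1)) :=
    ⟨(fsbRotE c s h).measurable, fsb_rot_map c s h⟩
  exact hmp.integrable_comp_emb (fsbRotE c s h).measurableEmbedding

/-! ## integrability on the plane -/

theorem fsb_int2 {F : ℝ × ℝ → ℝ} (hc : Continuous F) {C K : ℝ}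
    (hb : ∀ p, |F p| ≤ C * (Real.exp (K * |p.1|) * Real.exp (K * |p.2|))) :
    Integrable F ((gaussianReal 0 1).prod (gaussianReal 0 1)) := by
  have h1 : Integrable (fun p : ℝ × ℝ => Real.exp (K * |p.1|) * Real.exp (K * |p.2|))
      ((gaussianReal 0 1).prod (gaussianReal 0 1)) := (skh_exp_abs_int K).mul_prod (skh_exp_abs_int K)
  exact (h1.const_mul C).mono' hc.aestronglyMeasurable (Eventually.of_forall fun p => hb p)

/-- product of two functions of exponential growth evaluated at affine forms -/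
theorem fsb_int_aff {Φ G : ℝ → ℝ} (hΦ : ScE 0 Φ) (hG : ScE 0 G) (z a1 a2 w b1 b2 : ℝ) :
    Integrable (fun p : ℝ × ℝ => Φ (z + a1 * p.1 + a2 * p.2) * G (w + b1 * p.1 + b2 * p.2))
      ((gaussianReal 0 1).prod (gaussianReal 0 1)) := by
  obtain ⟨A, K, hA, hK, h1⟩ := hΦ.growth.skhGr
  obtain ⟨B, L, hB, hL, h2⟩ := hG.growth.skhGr
  have c1 := hΦ.continuous
  have c2 := hG.continuous
  obtain ⟨M, hM⟩ : ∃ M, M = K * (|a1| + |a2|) + L * (|b1| + |b2|) := ⟨_, rfl⟩
  refine fsb_int2 (by fun_prop) (C := A * Real.exp (K * |z|) * (B * Real.exp (L * |w|))) (K := M) fun p => ?_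
  rw [abs_mul]
  have e1 : |z + a1 * p.1 + a2 * p.2| ≤ |z| + |a1| * |p.1| + |a2| * |p.2| := by
    calc |z + a1 * p.1 + a2 * p.2| ≤ |z + a1 * p.1| + |a2 * p.2| := abs_add_le _ _
      _ ≤ |z| + |a1 * p.1| + |a2 * p.2| := by linarith [abs_add_le z (a1 * p.1)]
      _ = _ := by rw [abs_mul, abs_mul]
  have e2 : |w + b1 * p.1 + b2 * p.2| ≤ |w| + |b1| * |p.1| + |b2| * |p.2| := by
    calc |w + b1 * p.1 + b2 * p.2| ≤ |w + b1 * p.1| + |b2 * p.2| := abs_add_le _ _
      _ ≤ |w| + |b1 * p.1| + |b2 * p.2| := by linarith [abs_add_le w (b1 * p.1)]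
      _ = _ := by rw [abs_mul, abs_mul]
  have f1 : |Φ (z + a1 * p.1 + a2 * p.2)| ≤ A * Real.exp (K * (|z| + |a1| * |p.1| + |a2| * |p.2|)) :=
    (h1 _).trans (mul_le_mul_of_nonneg_left (Real.exp_le_exp.2 (mul_le_mul_of_nonneg_left e1 hK)) hA)
  have f2 : |G (w + b1 * p.1 + b2 * p.2)| ≤ B * Real.exp (L * (|w| + |b1| * |p.1| + |b2| * |p.2|)) :=
    (h2 _).trans (mul_le_mul_of_nonneg_left (Real.exp_le_exp.2 (mul_le_mul_of_nonneg_left e2 hL)) hB)
  refine (mul_le_mul f1 f2 (abs_nonneg _) (by positivity)).trans ?_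
  have g : Real.exp (K * (|z| + |a1| * |p.1| + |a2| * |p.2|)) * Real.exp (L * (|w| + |b1| * |p.1| + |b2| * |p.2|))
      ≤ Real.exp (K * |z|) * Real.exp (L * |w|) * (Real.exp (M * |p.1|) * Real.exp (M * |p.2|)) := by
    rw [← Real.exp_add, ← Real.exp_add, ← Real.exp_add, ← Real.exp_add]
    apply Real.exp_le_exp.2
    rw [hM]
    have q1 := abs_nonneg p.1
    have q2 := abs_nonneg p.2
    have r1 : 0 ≤ K * |a2| * |p.1| := by positivity
    have r2 : 0 ≤ K * |a1| * |p.2| := by positivity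
    have r3 : 0 ≤ L * |b2| * |p.1| := by positivity
    have r4 : 0 ≤ L * |b1| * |p.2| := by positivity
    nlinarith
  calc A * Real.exp (K * (|z| + |a1| * |p.1| + |a2| * |p.2|)) * (B * Real.exp (L * (|w| + |b1| * |p.1| + |b2| * |p.2|)))
      = A * B * (Real.exp (K * (|z| + |a1| * |p.1| + |a2| * |p.2|)) * Real.exp (L * (|w| + |b1| * |p.1| + |b2| * |p.2|))) := by ring
    _ ≤ A * B * (Real.exp (K * |z|) * Real.exp (L * |w|) * (Real.exp (M * |p.1|) * Real.exp (M * |p.2|))) :=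
      mul_le_mul_of_nonneg_left g (by positivity)
    _ = _ := by ring

/-! ## the bridge -/

/-- **Gaussian bridge.** -/
theorem fsb_bridge {Φ G : ℝ → ℝ} (hΦ : ScE 0 Φ) (hG : ScE 0 G) {a h : ℝ} (ha : 0 ≤ a) (hh : 0 ≤ h) (hah : 0 < a + h) (z : ℝ) :
    scHeat a (fun x => scHeat h Φ x * G x) z
      = scHeat (a + h) (fun s => Φ s * scHeat (a * h / (a + h)) G ((a * s + h * z) / (a + h))) z := by
  obtain ⟨ρ, hρ⟩ : ∃ ρ, ρ = Real.sqrt (a + h) := ⟨_, rfl⟩
  have hρ0 : 0 < ρ := by rw [hρ]; exact Real.sqrt_pos.2 hah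
  have hρ2 : ρ ^ 2 = a + h := by rw [hρ]; exact Real.sq_sqrt hah.le
  obtain ⟨α, hα⟩ : ∃ α, α = Real.sqrt a := ⟨_, rfl⟩
  obtain ⟨η, hη⟩ : ∃ η, η = Real.sqrt h := ⟨_, rfl⟩
  have hα2 : α ^ 2 = a := by rw [hα]; exact Real.sq_sqrt ha
  have hη2 : η ^ 2 = h := by rw [hη]; exact Real.sq_sqrt hh
  have hα0 : 0 ≤ α := by rw [hα]; exact Real.sqrt_nonneg _
  have hη0 : 0 ≤ η := by rw [hη]; exact Real.sqrt_nonneg _
  have hv : Real.sqrt (a * h / (a + h)) = α * η / ρ := by
    rw [Real.sqrt_div (mul_nonneg ha hh), Real.sqrt_mul ha, ← hα, ← hη, ← hρ]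
  have hcs : (α / ρ) ^ 2 + (η / ρ) ^ 2 = 1 := by
    rw [div_pow, div_pow, hα2, hη2, hρ2]
    field_simp
  unfold scHeat
  rw [← hα, ← hη, ← hρ, hv]
  -- left side as a plane integral
  have iH := fsb_int_aff hΦ hG z α η z α 0
  have L1 : ∫ g, (∫ g', Φ (z + α * g + η * g') ∂(gaussianReal 0 1)) * G (z + α * g) ∂(gaussianReal 0 1)
      = ∫ p : ℝ × ℝ, Φ (z + α * p.1 + η * p.2) * G (z + α * p.1 + 0 * p.2) ∂((gaussianReal 0 1).prod (gaussianReal 0 1)) := by
    rw [integral_prod _ iH]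
    refine integral_congr_ae (Eventually.of_forall fun g => ?_)
    simp only [zero_mul, add_zero]
    rw [integral_mul_const]
  have iR := fsb_int_aff hΦ hG z ρ 0 z (a / ρ) (α * η / ρ)
  have R1 : ∫ g, Φ (z + ρ * g) * (∫ g', G ((a * (z + ρ * g) + h * z) / (a + h) + α * η / ρ * g') ∂(gaussianReal 0 1)) ∂(gaussianReal 0 1)
      = ∫ p : ℝ × ℝ, Φ (z + ρ * p.1 + 0 * p.2) * G (z + a / ρ * p.1 + α * η / ρ * p.2) ∂((gaussianReal 0 1).prod (gaussianReal 0 1)) := by
    rw [integral_prod _ iR]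
    refine integral_congr_ae (Eventually.of_forall fun g => ?_)
    simp only [zero_mul, add_zero]
    rw [integral_const_mul]
    congr 1
    refine integral_congr_ae (Eventually.of_forall fun g' => ?_)
    simp only
    congr 2
    rw [← hρ2]
    field_simp
    linear_combination (-z) * hρ2
  rw [L1, R1, ← fsb_rot_integral (α / ρ) (η / ρ) hcs]
  refine integral_congr_ae (Eventually.of_forall fun p => ?_)
  simp only
  congr 2
  · have : α * (α / ρ * p.1 + η / ρ * p.2) + η * (η / ρ * p.1 - α / ρ * p.2) = (α ^ 2 + η ^ 2) / ρ * p.1 := by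
      field_simp
      ring
    have e : (α ^ 2 + η ^ 2) / ρ = ρ := by
      rw [hα2, hη2, ← hρ2]
      field_simp
    rw [add_assoc, this, e]
    ring
  · rw [← hα2]
    field_simp
    ring

/-- the bridge started at `0` -/
theorem fsb_bridge0 {Φ G : ℝ → ℝ} (hΦ : ScE 0 Φ) (hG : ScE 0 G) {a h : ℝ} (ha : 0 ≤ a) (hh : 0 ≤ h) (hah : 0 < a + h) :
    scHeat a (fun x => scHeat h Φ x * G x) 0
      = scHeat (a + h) (fun s => Φ s * scHeat (a * h / (a + h)) G (a * s / (a + h))) 0 := by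
  rw [fsb_bridge hΦ hG ha hh hah 0]
  simp

end Claimed.Agent.R286
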