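import Mathlib

/-!
# Row 286 (S0533), BOX-C (scalar block), FS paper, Section 4 (certificate.tex) + Lemma shape:ibp (signs.tex l.405-473): THE CERTIFICATE      (helper265; chief helper183; prefix `fsc`)

Mathlib only.   Variables of the paper at a fixed time in a constant step:  `r = c Φ_x`, `v = r_x`, `w = r_xx`, `z = r_xxx`, `s = -∂_x log g`, density `f` with `f_x = (r - s) f`;
`R = r²`, `K = r s`, `b = -w / r`, `j = s_x - (s / r) v`, `L = -r s_xx`, `B = b - 2 v`, `S = z + b v - 2 R b`.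
* `fsc_identity`    (Lemma cert:identity)  the rational polynomial identity, `fscW` = the explicit polynomial `𝒲(F₂)`.
* `fsc_pointwise`   the seven signs give  `z² - 12 R v b² + 6 v⁴ - 𝒲(F₂) ≥ (1661507/1521000000) v⁴`.
* `fsc_hasDerivAt`  (cert:divergence)  `∂_x (r f F₂) = f 𝒲(F₂)` at every point with `r ≠ 0`.
* `fsc_coercive_Ioi`  (Prop. cert:coercivity on the half line)  integrated coercivity from the signs on `x > 0`, integrability, and the two boundary limits.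
* `fsc_coercive`    the same on the whole line for even data.
-/

set_option autoImplicit false

namespace Claimed.Agent.R286

open MeasureTheory Set Filter Topology

noncomputable section

/-! ## 1. the polynomials -/

/-- `Q` of (cert:QT) -/
def fscQ (R K v b : ℝ) : ℝ := 1 / 13 * v * b + 53 / 24 * v ^ 2 + 19 / 16 * K * v - 2 * (19 / 16) * R * b + 73 / 48 * R * v

/-- `T` of (cert:QT) -/
def fscT (R v j : ℝ) : ℝ := 2331 / 10000 * R * v + 87 / 2500 * j * v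

/-- `F₂` of (cert:polynomials) -/
def fscF (R K v b j : ℝ) : ℝ :=
  (1 / 13 * v - 2 * (19 / 16) * R) * b ^ 2
    + b * (2 * (53 / 24) * v ^ 2 + 2 * (19 / 16) * K * v + (2331 / 10000 + 2 * (73 / 48)) * R * v + 87 / 2500 * j * v)
    + 4663 / 5000 * v ^ 2 * j + 6853 / 10000 * v ^ 3 + -1051 / 400 * K * v ^ 2 + -1073 / 500 * R * v ^ 2

/-- `∂_R F₂` -/
def fscFR (v b : ℝ) : ℝ := -(2 * (19 / 16)) * b ^ 2 + b * ((2331 / 10000 + 2 * (73 / 48)) * v) + -1073 / 500 * v ^ 2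
/-- `∂_K F₂` -/
def fscFK (v b : ℝ) : ℝ := b * (2 * (19 / 16) * v) + -1051 / 400 * v ^ 2
/-- `∂_v F₂` -/
def fscFv (R K v b j : ℝ) : ℝ :=
  1 / 13 * b ^ 2 + b * (2 * (53 / 24) * (2 * v) + 2 * (19 / 16) * K + (2331 / 10000 + 2 * (73 / 48)) * R + 87 / 2500 * j)
    + 4663 / 5000 * (2 * v) * j + 6853 / 10000 * (3 * v ^ 2) + -1051 / 400 * K * (2 * v) + -1073 / 500 * R * (2 * v)
/-- `∂_b F₂ = 2 Q + T` -/
def fscFb (R K v b j : ℝ) : ℝ :=
  (1 / 13 * v - 2 * (19 / 16) * R) * (2 * b)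
    + (2 * (53 / 24) * v ^ 2 + 2 * (19 / 16) * K * v + (2331 / 10000 + 2 * (73 / 48)) * R * v + 87 / 2500 * j * v)
/-- `∂_j F₂` -/
def fscFj (v b : ℝ) : ℝ := b * (87 / 2500 * v) + 4663 / 5000 * v ^ 2

/-- `𝒲(F₂) = 𝒟 F₂ + (v + R - K) F₂`, with the derivative rules (shape:D-rules) -/
def fscW (R K v b j z L : ℝ) : ℝ :=
  fscFR v b * (2 * R * v) + fscFK v b * (2 * v * K + R * j) + fscFv R K v b j * (-(R * b)) + fscFb R K v b j * (-z - b * v)
    + fscFj v b * (-(j * v) + K * b - L) + (v + R - K) * fscF R K v b j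

/-- the remainder `P_rem` (Table cert:table), in the variables `R, K, v, B, j` -/
def fscRem (R K v B j : ℝ) : ℝ :=
  223 / 160000 * (R ^ 2 * v ^ 2) + 4007 / 240000 * (R ^ 2 * v * B) + 1097 / 120000 * (R ^ 2 * B ^ 2) + 83 / 80000 * (R * K * v ^ 2)
    + 3343 / 24000 * (R * K * v * B) + 16259 / 23400000 * (R * v ^ 3) + 30179 / 5460000 * (R * v ^ 2 * B) + 26 / 625 * (R * v ^ 2 * j)
    + 107 / 15000 * (R * v * B ^ 2) + 3 / 2500 * (R * v * B * j) + 121 / 32500 * (R * B ^ 3) + 11 / 10000 * (R * B ^ 2 * j)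
    + 579 / 20000 * (K ^ 2 * v ^ 2) + 207 / 2500 * (K ^ 2 * v * B) + 911 / 975000 * (K * v ^ 3) + 349 / 420000 * (K * v ^ 2 * B)
    + 5011 / 5000 * (K * v ^ 2 * j) + 133 / 130000 * (K * v * B ^ 2) + 87 / 2500 * (K * v * B * j) + 1661507 / 1521000000 * v ^ 4
    + 633799 / 621075000 * (v ^ 3 * B) + 10657 / 1690000 * (v ^ 2 * B ^ 2)

/-- the five weighted squares `Σ p_i P_i` of (cert:squares), (cert:constants) -/
def fscSq (R K v b j : ℝ) : ℝ :=
  337 / 10000 * (R * j * (b - 7 * v) ^ 2) + 183 / 2500 * (R * (b - 2 * v) * (b - 7 / 3 * v) ^ 2) + 411 / 10000 * (K * v * (b - 9 / 2 * v) ^ 2)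
    + 11461 / 5000 * (v * (b - 2 * v) * (K + 1 / 4 * R - 1 / 7 * v) ^ 2)
    + 647 / 10000 * (v * b - 14 / 5 * v ^ 2 - 13 / 4 * K * v + 4 / 3 * R * v) ^ 2

/-- **Lemma cert:identity** -/
theorem fsc_identity (R K v b j z L : ℝ) :
    z ^ 2 - 12 * R * v * b ^ 2 + 6 * v ^ 4
      = (z + fscQ R K v b) ^ 2 + (z + b * v - 2 * R * b) * fscT R v j + fscSq R K v b j + fscW R K v b j z L
        + L * (4663 / 5000 * v ^ 2 + 87 / 2500 * b * v) + fscRem R K v (b - 2 * v) j := by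
  unfold fscQ fscT fscSq fscW fscRem fscFR fscFK fscFv fscFb fscFj fscF
  ring

/-- the pointwise form of Prop. cert:coercivity -/
theorem fsc_pointwise (R K v b j z L : ℝ) (hR : 0 ≤ R) (hK : 0 ≤ K) (hv : 0 ≤ v) (hB : 0 ≤ b - 2 * v) (hj : 0 ≤ j) (hL : 0 ≤ L)
    (hS : 0 ≤ z + b * v - 2 * R * b) :
    1661507 / 1521000000 * v ^ 4 ≤ z ^ 2 - 12 * R * v * b ^ 2 + 6 * v ^ 4 - fscW R K v b j z L := by
  have hb : 0 ≤ b := by linarith
  rw [fsc_identity R K v b j z L]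
  have h1 : 0 ≤ (z + fscQ R K v b) ^ 2 := sq_nonneg _
  have h2 : 0 ≤ (z + b * v - 2 * R * b) * fscT R v j := by
    apply mul_nonneg hS
    unfold fscT
    positivity
  have h3 : 0 ≤ fscSq R K v b j := by
    unfold fscSq
    have a1 : 0 ≤ R * j * (b - 7 * v) ^ 2 := by positivity
    have a2 : 0 ≤ R * (b - 2 * v) * (b - 7 / 3 * v) ^ 2 := mul_nonneg (mul_nonneg hR hB) (sq_nonneg _)
    have a3 : 0 ≤ K * v * (b - 9 / 2 * v) ^ 2 := by positivity
    have a4 : 0 ≤ v * (b - 2 * v) * (K + 1 / 4 * R - 1 / 7 * v) ^ 2 := mul_nonneg (mul_nonneg hv hB) (sq_nonneg _)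
    have a5 : 0 ≤ (v * b - 14 / 5 * v ^ 2 - 13 / 4 * K * v + 4 / 3 * R * v) ^ 2 := sq_nonneg _
    linarith
  have h4 : 0 ≤ L * (4663 / 5000 * v ^ 2 + 87 / 2500 * b * v) := by positivity
  have h5 : 1661507 / 1521000000 * v ^ 4 ≤ fscRem R K v (b - 2 * v) j := by
    obtain ⟨B, hBd⟩ : ∃ B : ℝ, B = b - 2 * v := ⟨_, rfl⟩
    rw [← hBd] at hB ⊢
    unfold fscRem
    have : 0 ≤ 223 / 160000 * (R ^ 2 * v ^ 2) + 4007 / 240000 * (R ^ 2 * v * B) + 1097 / 120000 * (R ^ 2 * B ^ 2) + 83 / 80000 * (R * K * v ^ 2)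
      + 3343 / 24000 * (R * K * v * B) + 16259 / 23400000 * (R * v ^ 3) + 30179 / 5460000 * (R * v ^ 2 * B) + 26 / 625 * (R * v ^ 2 * j)
      + 107 / 15000 * (R * v * B ^ 2) + 3 / 2500 * (R * v * B * j) + 121 / 32500 * (R * B ^ 3) + 11 / 10000 * (R * B ^ 2 * j)
      + 579 / 20000 * (K ^ 2 * v ^ 2) + 207 / 2500 * (K ^ 2 * v * B) + 911 / 975000 * (K * v ^ 3) + 349 / 420000 * (K * v ^ 2 * B)
      + 5011 / 5000 * (K * v ^ 2 * j) + 133 / 130000 * (K * v * B ^ 2) + 87 / 2500 * (K * v * B * j)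
      + 633799 / 621075000 * (v ^ 3 * B) + 10657 / 1690000 * (v ^ 2 * B ^ 2) := by positivity
    linarith
  linarith

/-! ## 2. the divergence identity -/

/-- chain rule for `F₂` -/
theorem fsc_F_hasDerivAt {R K v b j : ℝ → ℝ} {R' K' v' b' j' x : ℝ} (hR : HasDerivAt R R' x) (hK : HasDerivAt K K' x) (hv : HasDerivAt v v' x)
    (hb : HasDerivAt b b' x) (hj : HasDerivAt j j' x) :
    HasDerivAt (fun y => fscF (R y) (K y) (v y) (b y) (j y))
      (fscFR (v x) (b x) * R' + fscFK (v x) (b x) * K' + fscFv (R x) (K x) (v x) (b x) (j x) * v' + fscFb (R x) (K x) (v x) (b x) (j x) * b'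
        + fscFj (v x) (b x) * j') x := by
  unfold fscF
  have h1 := ((hv.const_mul (1 / 13)).sub (hR.const_mul (2 * (19 / 16)))).mul (hb.pow 2)
  have h2 := hb.mul (((((hv.pow 2).const_mul (2 * (53 / 24))).add ((hK.const_mul (2 * (19 / 16))).mul hv)).add
    ((hR.const_mul (2331 / 10000 + 2 * (73 / 48))).mul hv)).add ((hj.const_mul (87 / 2500)).mul hv))
  have h3 := ((hv.pow 2).const_mul (4663 / 5000)).mul hj
  have h4 := (hv.pow 3).const_mul (6853 / 10000)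
  have h5 := (hK.const_mul (-1051 / 400)).mul (hv.pow 2)
  have h6 := (hR.const_mul (-1073 / 500)).mul (hv.pow 2)
  have H := ((((h1.add h2).add h3).add h4).add h5).add h6
  refine H.congr_deriv ?_
  unfold fscFR fscFK fscFv fscFb fscFj
  simp only [Pi.pow_apply, Pi.mul_apply, Pi.add_apply, Pi.sub_apply]
  ring

/-- **(cert:divergence)**: `∂_x (r f F₂) = f 𝒲(F₂)` at a point with `r ≠ 0`.      `r1, r2, r3` = the derivatives of `r` (`v, w, z`), `s1, s2` = the derivatives of `s`. -/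
theorem fsc_hasDerivAt {r r1 r2 s s1 f : ℝ → ℝ} {r3 s2 x : ℝ} (h0 : r x ≠ 0) (hr : HasDerivAt r (r1 x) x) (hr1 : HasDerivAt r1 (r2 x) x)
    (hr2 : HasDerivAt r2 r3 x) (hs : HasDerivAt s (s1 x) x) (hs1 : HasDerivAt s1 s2 x) (hf : HasDerivAt f ((r x - s x) * f x) x) :
    HasDerivAt (fun y => r y * f y * fscF (r y ^ 2) (r y * s y) (r1 y) (-r2 y / r y) (s1 y - s y / r y * r1 y))
      (f x * fscW (r x ^ 2) (r x * s x) (r1 x) (-r2 x / r x) (s1 x - s x / r x * r1 x) r3 (-(r x * s2))) x := by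
  have hR := hr.pow 2
  have hK := hr.mul hs
  have hb := hr2.neg.div hr h0
  have hj := hs1.sub ((hs.div hr h0).mul hr1)
  have H := (hr.mul hf).mul (fsc_F_hasDerivAt hR hK hr1 hb hj)
  refine H.congr_deriv ?_
  have e1 : r x * (↑2 * r x ^ (2 - 1) * r1 x) = 2 * r x ^ 2 * r1 x := by norm_num; ring
  have e2 : r x * (r1 x * s x + r x * s1 x) = 2 * r1 x * (r x * s x) + r x ^ 2 * (s1 x - s x / r x * r1 x) := by field_simp; ring
  have e3 : r x * r2 x = -(r x ^ 2 * (-r2 x / r x)) := by field_simp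
  have e4 : r x * ((-r3 * r x - -r2 x * r1 x) / r x ^ 2) = -r3 - -r2 x / r x * r1 x := by field_simp
  have e5 : r x * (s2 - ((s1 x * r x - s x * r1 x) / r x ^ 2 * r1 x + s x / r x * r2 x))
      = -((s1 x - s x / r x * r1 x) * r1 x) + r x * s x * (-r2 x / r x) - -(r x * s2) := by field_simp; ring
  unfold fscW
  simp only [Pi.pow_apply, Pi.mul_apply, Pi.neg_apply, Pi.div_apply, Pi.sub_apply]
  linear_combination (f x * fscFR (r1 x) (-r2 x / r x)) * e1 + (f x * fscFK (r1 x) (-r2 x / r x)) * e2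
    + (f x * fscFv (r x ^ 2) (r x * s x) (r1 x) (-r2 x / r x) (s1 x - s x / r x * r1 x)) * e3
    + (f x * fscFb (r x ^ 2) (r x * s x) (r1 x) (-r2 x / r x) (s1 x - s x / r x * r1 x)) * e4
    + (f x * fscFj (r1 x) (-r2 x / r x)) * e5

/-! ## 3. integrated coercivity -/

/-- the flux `r f F₂` -/
def fscG (r r1 r2 s s1 f : ℝ → ℝ) : ℝ → ℝ :=
  fun y => r y * f y * fscF (r y ^ 2) (r y * s y) (r1 y) (-r2 y / r y) (s1 y - s y / r y * r1 y)

/-- the function `𝒲(F₂)` along the data -/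
def fscWf (r r1 r2 r3 s s1 s2 : ℝ → ℝ) : ℝ → ℝ :=
  fun x => fscW (r x ^ 2) (r x * s x) (r1 x) (-r2 x / r x) (s1 x - s x / r x * r1 x) (r3 x) (-(r x * s2 x))

/-- the curvature integrand `z² - 12 v w² + 6 v⁴` -/
def fscCv (r1 r2 r3 : ℝ → ℝ) : ℝ → ℝ := fun x => r3 x ^ 2 - 12 * r1 x * r2 x ^ 2 + 6 * r1 x ^ 4

/-- the pointwise bound along the data, with DIVISION-FREE sign hypotheses:
`sH` is `2 r H ≤ 0`, `sS` is `r S = 2 r² H_x ≥ 0`, `sj` is `r j ≥ 0`, `sL` is `s_xx ≤ 0`. -/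
theorem fsc_pointwise_data {r r1 r2 r3 s s1 s2 : ℝ → ℝ} {x : ℝ} (h0 : 0 < r x) (sv : 0 ≤ r1 x) (ss : 0 ≤ s x)
    (sH : r2 x + 2 * r x * r1 x ≤ 0) (sS : 0 ≤ r x * r3 x - r2 x * r1 x + 2 * r x ^ 2 * r2 x) (sj : 0 ≤ r x * s1 x - s x * r1 x)
    (sL : s2 x ≤ 0) :
    1661507 / 1521000000 * r1 x ^ 4 ≤ fscCv r1 r2 r3 x - fscWf r r1 r2 r3 s s1 s2 x := by
  have h0' := h0.ne'
  have hB : 0 ≤ -r2 x / r x - 2 * r1 x := by
    have : -r2 x / r x - 2 * r1 x = -(r2 x + 2 * r x * r1 x) / r x := by field_simp; ring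
    rw [this]
    exact div_nonneg (by linarith) h0.le
  have hj : 0 ≤ s1 x - s x / r x * r1 x := by
    have : s1 x - s x / r x * r1 x = (r x * s1 x - s x * r1 x) / r x := by field_simp
    rw [this]
    exact div_nonneg sj h0.le
  have hS : 0 ≤ r3 x + -r2 x / r x * r1 x - 2 * r x ^ 2 * (-r2 x / r x) := by
    have : r3 x + -r2 x / r x * r1 x - 2 * r x ^ 2 * (-r2 x / r x) = (r x * r3 x - r2 x * r1 x + 2 * r x ^ 2 * r2 x) / r x := by
      field_simp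
      ring
    rw [this]
    exact div_nonneg sS h0.le
  have hL : 0 ≤ -(r x * s2 x) := by nlinarith
  have key := fsc_pointwise (r x ^ 2) (r x * s x) (r1 x) (-r2 x / r x) (s1 x - s x / r x * r1 x) (r3 x) (-(r x * s2 x))
    (by positivity) (by positivity) sv hB hj hL hS
  have e : r x ^ 2 * r1 x * (-r2 x / r x) ^ 2 = r1 x * r2 x ^ 2 := by field_simp
  unfold fscCv fscWf
  linarith

/-- the flux has zero total derivative on the half line -/
theorem fsc_flux_zero {G G' : ℝ → ℝ} (hG : ∀ x, 0 < x → HasDerivAt G (G' x) x) (hi : IntegrableOn G' (Ioi 0))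
    (hb0 : Tendsto G (𝓝[>] 0) (𝓝 0)) (hbi : Tendsto G atTop (𝓝 0)) : ∫ x in Ioi 0, G' x = 0 := by
  have hc : ContinuousWithinAt (Function.update G 0 0) (Ici 0) 0 := by
    rw [continuousWithinAt_update_same]
    have : Ici (0 : ℝ) \ {0} = Ioi 0 := by
      ext x
      simp only [Set.mem_sdiff, mem_Ici, mem_singleton_iff, mem_Ioi]
      exact ⟨fun h => lt_of_le_of_ne h.1 (Ne.symm h.2), fun h => ⟨h.le, h.ne'⟩⟩
    rw [this]
    exact hb0
  have hd : ∀ x ∈ Ioi (0 : ℝ), HasDerivAt (Function.update G 0 0) (G' x) x := by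
    intro x hx
    refine (hG x hx).congr_of_eventuallyEq ?_
    filter_upwards [isOpen_Ioi.mem_nhds hx] with y hy
    exact Function.update_of_ne (ne_of_gt hy) _ _
  have ht : Tendsto (Function.update G 0 0) atTop (𝓝 0) := by
    refine hbi.congr' ?_
    filter_upwards [eventually_gt_atTop 0] with y hy
    exact (Function.update_of_ne (ne_of_gt hy) _ _).symm
  have := integral_Ioi_of_hasDerivAt_of_tendsto hc hd hi ht
  simpa using this

/-- **Prop. cert:coercivity on the half line.**   Signs on `x > 0` in division-free form, integrability of the three integrands, the flux `r f F₂` tends to `0` at `0+` and at `+∞`. -/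
theorem fsc_coercive_Ioi {r r1 r2 r3 s s1 s2 f : ℝ → ℝ} (h0 : ∀ x, 0 < x → 0 < r x)
    (hr : ∀ x, 0 < x → HasDerivAt r (r1 x) x) (hr1 : ∀ x, 0 < x → HasDerivAt r1 (r2 x) x) (hr2 : ∀ x, 0 < x → HasDerivAt r2 (r3 x) x)
    (hs : ∀ x, 0 < x → HasDerivAt s (s1 x) x) (hs1 : ∀ x, 0 < x → HasDerivAt s1 (s2 x) x)
    (hf : ∀ x, 0 < x → HasDerivAt f ((r x - s x) * f x) x) (hf0 : ∀ x, 0 < x → 0 ≤ f x)
    (sv : ∀ x, 0 < x → 0 ≤ r1 x) (ss : ∀ x, 0 < x → 0 ≤ s x) (sH : ∀ x, 0 < x → r2 x + 2 * r x * r1 x ≤ 0)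
    (sS : ∀ x, 0 < x → 0 ≤ r x * r3 x - r2 x * r1 x + 2 * r x ^ 2 * r2 x) (sj : ∀ x, 0 < x → 0 ≤ r x * s1 x - s x * r1 x)
    (sL : ∀ x, 0 < x → s2 x ≤ 0)
    (hb0 : Tendsto (fscG r r1 r2 s s1 f) (𝓝[>] 0) (𝓝 0)) (hbi : Tendsto (fscG r r1 r2 s s1 f) atTop (𝓝 0))
    (i1 : IntegrableOn (fun x => f x * fscWf r r1 r2 r3 s s1 s2 x) (Ioi 0)) (i2 : IntegrableOn (fun x => f x * fscCv r1 r2 r3 x) (Ioi 0))
    (i3 : IntegrableOn (fun x => f x * r1 x ^ 4) (Ioi 0)) :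
    1661507 / 1521000000 * ∫ x in Ioi 0, f x * r1 x ^ 4 ≤ ∫ x in Ioi 0, f x * fscCv r1 r2 r3 x := by
  have hz : ∫ x in Ioi 0, f x * fscWf r r1 r2 r3 s s1 s2 x = 0 :=
    fsc_flux_zero (G := fscG r r1 r2 s s1 f) (fun x hx => fsc_hasDerivAt (h0 x hx).ne' (hr x hx) (hr1 x hx) (hr2 x hx) (hs x hx) (hs1 x hx) (hf x hx))
      i1 hb0 hbi
  have hm : ∫ x in Ioi 0, 1661507 / 1521000000 * (f x * r1 x ^ 4) ≤ ∫ x in Ioi 0, (f x * fscCv r1 r2 r3 x - f x * fscWf r r1 r2 r3 s s1 s2 x) := by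
    refine setIntegral_mono_on (i3.const_mul _) (i2.sub i1) measurableSet_Ioi (fun x hx => ?_)
    have := fsc_pointwise_data (r3 := r3) (s2 := s2) (h0 x hx) (sv x hx) (ss x hx) (sH x hx) (sS x hx) (sj x hx) (sL x hx)
    have := mul_le_mul_of_nonneg_left this (hf0 x hx)
    linarith
  rw [integral_const_mul, integral_sub i2 i1, hz] at hm
  linarith

/-- an even function integrates to twice its half-line integral -/
theorem fsc_integral_even {F : ℝ → ℝ} (hF : ∀ x, F (-x) = F x) : ∫ x, F x = 2 * ∫ x in Ioi 0, F x := by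
  have : F = fun x => F |x| := by
    funext x
    rcases abs_cases x with ⟨h, _⟩ | ⟨h, _⟩
    · rw [h]
    · rw [h, hF]
  conv_lhs => rw [this]
  exact integral_comp_abs

/-- **Prop. cert:coercivity** (whole line): `E_f [z² - 12 v w² + 6 v⁴] ≥ (1661507/1521000000) E_f v⁴ ≥ E_f v⁴ / 1000` for even `f, v, z` and `w²`. -/
theorem fsc_coercive {r r1 r2 r3 s s1 s2 f : ℝ → ℝ} (h0 : ∀ x, 0 < x → 0 < r x)
    (hr : ∀ x, 0 < x → HasDerivAt r (r1 x) x) (hr1 : ∀ x, 0 < x → HasDerivAt r1 (r2 x) x) (hr2 : ∀ x, 0 < x → HasDerivAt r2 (r3 x) x)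
    (hs : ∀ x, 0 < x → HasDerivAt s (s1 x) x) (hs1 : ∀ x, 0 < x → HasDerivAt s1 (s2 x) x)
    (hf : ∀ x, 0 < x → HasDerivAt f ((r x - s x) * f x) x) (hf0 : ∀ x, 0 < x → 0 ≤ f x)
    (sv : ∀ x, 0 < x → 0 ≤ r1 x) (ss : ∀ x, 0 < x → 0 ≤ s x) (sH : ∀ x, 0 < x → r2 x + 2 * r x * r1 x ≤ 0)
    (sS : ∀ x, 0 < x → 0 ≤ r x * r3 x - r2 x * r1 x + 2 * r x ^ 2 * r2 x) (sj : ∀ x, 0 < x → 0 ≤ r x * s1 x - s x * r1 x)
    (sL : ∀ x, 0 < x → s2 x ≤ 0)
    (hb0 : Tendsto (fscG r r1 r2 s s1 f) (𝓝[>] 0) (𝓝 0)) (hbi : Tendsto (fscG r r1 r2 s s1 f) atTop (𝓝 0))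
    (i1 : IntegrableOn (fun x => f x * fscWf r r1 r2 r3 s s1 s2 x) (Ioi 0)) (i2 : IntegrableOn (fun x => f x * fscCv r1 r2 r3 x) (Ioi 0))
    (i3 : IntegrableOn (fun x => f x * r1 x ^ 4) (Ioi 0))
    (ef : ∀ x, f (-x) = f x) (e1 : ∀ x, r1 (-x) = r1 x) (e2 : ∀ x, r2 (-x) = -r2 x) (e3 : ∀ x, r3 (-x) = r3 x) :
    1 / 1000 * ∫ x, f x * r1 x ^ 4 ≤ ∫ x, f x * fscCv r1 r2 r3 x := by
  have key := fsc_coercive_Ioi h0 hr hr1 hr2 hs hs1 hf hf0 sv ss sH sS sj sL hb0 hbi i1 i2 i3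
  rw [fsc_integral_even (F := fun x => f x * r1 x ^ 4) (fun x => by simp only [ef, e1]),
    fsc_integral_even (F := fun x => f x * fscCv r1 r2 r3 x) (fun x => by simp only [fscCv, ef, e1, e2, e3, neg_sq])]
  have hn : 0 ≤ ∫ x in Ioi 0, f x * r1 x ^ 4 :=
    setIntegral_nonneg measurableSet_Ioi (fun x hx => mul_nonneg (hf0 x hx) (by positivity))
  linarith

end

end Claimed.Agent.R286
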