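import Claimed.Agent.R286.Fs.Bridge
import Claimed.Agent.R286.Sc.GenDefs

/-!
# Row 286, BOX-C, forward factor: the step map of `ψ`      (OWNER helper230)

Density of `Z_t` = `p_t e^{m V(t) - ψ(t)}` (`p_t` = centred Gaussian density of variance `t`).  In a step that starts at the time `a`
with the post-jump value `ψ`:   `ψ(a + h, x) = scFw a h ψ x = - log scHeat (a h/(a+h)) (e^{-ψ}) (a x/(a+h))`.
-/

set_option autoImplicit false

namespace Claimed.Agent.R286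

open MeasureTheory ProbabilityTheory Filter Topology Set

/-! ## general lemmas on iterated derivatives and the classes -/

theorem fsw_iter_const_mul (k : ℕ) (c : ℝ) (g : ℝ → ℝ) : deriv^[k] (fun x => c * g x) = fun x => c * deriv^[k] g x := by
  induction k generalizing g with
  | zero => rfl
  | succ k ih =>
    rw [Function.iterate_succ_apply, Function.iterate_succ_apply]
    have e : deriv (fun x => c * g x) = fun x => c * deriv g x := by
      funext x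
      exact deriv_const_mul_field c
    rw [e, ih]

theorem fsw_deriv_comp_mul {f : ℝ → ℝ} (hf : Differentiable ℝ f) (c : ℝ) :
    deriv (fun x => f (c * x)) = fun x => c * deriv f (c * x) := by
  funext x
  have h1 : HasDerivAt (fun x : ℝ => c * x) c x := by simpa using (hasDerivAt_id x).const_mul c
  have h2 := (hf (c * x)).hasDerivAt.comp x h1
  rw [mul_comm]
  exact h2.deriv

theorem fsw_B_comp_mul {n : ℕ} {f : ℝ → ℝ} (hf : ScB n f) (c : ℝ) : ScB n (fun x => f (c * x)) := by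
  induction n generalizing f with
  | zero =>
    have : Continuous f := hf
    exact (by fun_prop : Continuous fun x => f (c * x))
  | succ n ih =>
    obtain ⟨C, hC⟩ := hf.2.1
    refine ⟨fun x => ?_, ⟨|c| * C, fun x => ?_⟩, ?_⟩
    · exact (hf.1 (c * x)).comp x (by fun_prop)
    · rw [fsw_deriv_comp_mul hf.1, abs_mul]
      exact mul_le_mul_of_nonneg_left (hC _) (abs_nonneg _)
    · rw [fsw_deriv_comp_mul hf.1]
      exact (ih hf.2.2).const_mul c

theorem fsw_iter_comp_mul {k : ℕ} {f : ℝ → ℝ} (hf : ScB k f) (c : ℝ) :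
    deriv^[k] (fun x => f (c * x)) = fun x => c ^ k * deriv^[k] f (c * x) := by
  induction k generalizing f with
  | zero => funext x; simp
  | succ k ih =>
    rw [Function.iterate_succ_apply, Function.iterate_succ_apply, fsw_deriv_comp_mul hf.1, fsw_iter_const_mul, ih hf.2.2]
    funext x
    ring

/-- time change and time dependent scaling in the class `ScT` -/
theorem fsw_T_reparam {I J : Set ℝ} {n : ℕ} {Ψ : ℝ → ℝ → ℝ} (hΨ : ScT J n Ψ) {θ lam : ℝ → ℝ} (hθ : ContinuousOn θ I)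
    (hθJ : MapsTo θ I J) (hl : ContinuousOn lam I) {Λ : ℝ} (hΛ : ∀ t ∈ I, |lam t| ≤ Λ) :
    ScT I n (fun t x => Ψ (θ t) (lam t * x)) := by
  have base : ∀ {Ψ : ℝ → ℝ → ℝ}, ScT J 0 Ψ → ScT I 0 (fun t x => Ψ (θ t) (lam t * x)) := by
    intro Ψ hΨ
    refine ⟨?_, ?_⟩
    · have h2 : ContinuousOn (fun p : ℝ × ℝ => ((θ p.1, lam p.1 * p.2) : ℝ × ℝ)) (I ×ˢ univ) := by
        refine ContinuousOn.prodMk (hθ.comp continuousOn_fst (fun p hp => hp.1)) ?_
        exact (hl.comp continuousOn_fst (fun p hp => hp.1)).mul continuousOn_snd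
      exact hΨ.1.comp h2 (fun p hp => ⟨hθJ hp.1, mem_univ _⟩)
    · obtain ⟨A, K, hA, hK, hg⟩ := hΨ.gu.norm
      refine ⟨A, K * Λ, fun t ht x => (hg _ (hθJ ht) _).trans ?_⟩
      refine mul_le_mul_of_nonneg_left (Real.exp_le_exp.2 ?_) hA
      rw [abs_mul, mul_assoc]
      exact mul_le_mul_of_nonneg_left (mul_le_mul_of_nonneg_right (hΛ t ht) (abs_nonneg _)) hK
  induction n generalizing Ψ with
  | zero => exact base hΨ
  | succ n ih =>
    have b := base (Ψ := Ψ) ⟨hΨ.1, hΨ.2.1⟩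
    refine ⟨b.1, b.2, fun t ht x => ?_, ?_⟩
    · exact (hΨ.2.2.1 _ (hθJ ht) (lam t * x)).comp x (by fun_prop)
    · refine ((ScT.of_time hl ⟨Λ, hΛ⟩ n).mul (ih hΨ.2.2.2)).congr' fun t ht => ?_
      exact fsw_deriv_comp_mul (hΨ.2.2.1 _ (hθJ ht)) (lam t)

/-- chain rule for a function of two real variables with continuous partial derivatives -/
theorem fsw_chain2 {F A B : ℝ → ℝ → ℝ} {a b : ℝ}
    (dA : ∀ᶠ v : ℝ × ℝ in 𝓝 (a, b), HasDerivAt (fun x => F x v.2) (A v.1 v.2) v.1)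
    (dB : ∀ᶠ v : ℝ × ℝ in 𝓝 (a, b), HasDerivAt (fun y => F v.1 y) (B v.1 v.2) v.2)
    (cA : ContinuousAt (fun v : ℝ × ℝ => A v.1 v.2) (a, b)) (cB : ContinuousAt (fun v : ℝ × ℝ => B v.1 v.2) (a, b))
    {α β : ℝ → ℝ} {α' β' t : ℝ} (hα : HasDerivAt α α' t) (hβ : HasDerivAt β β' t) (ea : α t = a) (eb : β t = b) :
    HasDerivAt (fun s => F (α s) (β s)) (A a b * α' + B a b * β') t := by
  have h := hasStrictFDerivAt_uncurry_coprod (𝕜 := ℝ) (u := (a, b)) (f := F)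
    (f₁ := fun x y => ContinuousLinearMap.toSpanSingleton ℝ (A x y))
    (f₂ := fun x y => ContinuousLinearMap.toSpanSingleton ℝ (B x y))
    (dA.mono fun v hv => hv.hasFDerivAt) (dB.mono fun v hv => hv.hasFDerivAt)
    ((ContinuousLinearMap.toSpanSingletonCLE (𝕜 := ℝ) (E := ℝ)).continuous.continuousAt.comp cA)
    ((ContinuousLinearMap.toSpanSingletonCLE (𝕜 := ℝ) (E := ℝ)).continuous.continuousAt.comp cB)
  have h2 := h.hasFDerivAt
  rw [← ea, ← eb] at h2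
  have h3 := h2.comp_hasDerivAt t (hα.prodMk hβ)
  refine h3.congr_deriv ?_
  simp [Function.HasUncurry.uncurry, ea, eb]
  ring

/-! ## the Cole-Hopf step in the variance variable -/

/-- the PDE of a step, forward in the variance -/
theorem fsw_step_var {F : ℝ → ℝ} (hF : ScB 2 F) (m : ℝ) {τ : ℝ} (hτ : 0 < τ) (z : ℝ) :
    HasDerivAt (fun τ => scStep m τ F z)
      ((deriv (deriv (scStep m τ F)) z + m * deriv (scStep m τ F) z ^ 2) / 2) τ := by
  have h := sc_step_pde hF m (t₁ := τ) (r := 0) hτ z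
  simp only [sub_zero] at h
  have h1 : HasDerivAt (fun τ' : ℝ => τ - τ') (-1) τ := by simpa using (hasDerivAt_id τ).const_sub τ
  have h0 : HasDerivAt (fun r => scStep m (τ - r) F z)
      (-(deriv (deriv (scStep m τ F)) z + m * deriv (scStep m τ F) z ^ 2) / 2) (τ - τ) := by
    rw [sub_self]; exact h
  have h2 := h0.comp τ h1
  have e : ((fun r => scStep m (τ - r) F z) ∘ fun τ' : ℝ => τ - τ') = fun τ' => scStep m τ' F z := by
    funext τ'
    simp
  rw [e] at h2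
  exact h2.congr_deriv (by ring)

/-- joint continuity of the `z`-derivatives of a step in (variance, space) -/
theorem fsw_step_cont {n : ℕ} {F : ℝ → ℝ} (hF : ScB (n + 1) F) (m S : ℝ) (k : ℕ) (hk : k ≤ n + 1) :
    ContinuousOn (fun p : ℝ × ℝ => deriv^[k] (scStep m p.1 F) p.2) (Icc 0 S ×ˢ univ) := by
  have h1 : ScT (Icc 0 S) (n + 1) (fun r => scStep m (S - r) F) := sc_step_T hF m 0 S
  have h2 : ScT (Icc 0 S) 0 (fun r => deriv^[k] (scStep m (S - r) F)) := sc_T_iter k (h1.mono (by omega))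
  have h3 : ContinuousOn (fun p : ℝ × ℝ => ((S - p.1, p.2) : ℝ × ℝ)) (Icc 0 S ×ˢ univ) := Continuous.continuousOn (by fun_prop)
  have h4 := h2.1.comp h3 (fun p hp => ⟨⟨by linarith [hp.1.2], by linarith [hp.1.1]⟩, mem_univ _⟩)
  refine h4.congr fun p _ => ?_
  simp

theorem fsw_step_contAt {n : ℕ} {F : ℝ → ℝ} (hF : ScB (n + 1) F) (m : ℝ) (k : ℕ) (hk : k ≤ n + 1) {τ : ℝ} (hτ : 0 < τ) (y : ℝ) :
    ContinuousAt (fun p : ℝ × ℝ => deriv^[k] (scStep m p.1 F) p.2) (τ, y) :=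
  (fsw_step_cont hF m (τ + 1) k hk).continuousAt (prod_mem_nhds (Icc_mem_nhds hτ (by linarith)) univ_mem)

/-! ## the forward step map -/

/-- `scFw` (defined in `Sc/GenDefs.lean`) is a Cole-Hopf step of mass `-1` in rescaled variables -/
theorem sc_fw_step (a h : ℝ) (ψ : ℝ → ℝ) (x : ℝ) :
    scFw a h ψ x = scStep (-1) (a * h / (a + h)) ψ (a / (a + h) * x) := by
  unfold scFw scStep scW
  rw [if_neg (by norm_num)]
  have e : (fun y => Real.exp (-1 * ψ y)) = fun y => Real.exp (-ψ y) := by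
    funext y; rw [neg_one_mul]
  rw [e]
  norm_num

theorem sc_fw_step' (a h : ℝ) (ψ : ℝ → ℝ) :
    scFw a h ψ = fun x => scStep (-1) (a * h / (a + h)) ψ (a / (a + h) * x) := funext fun x => sc_fw_step a h ψ x

theorem sc_fw_eq (a h : ℝ) (ψ : ℝ → ℝ) (x : ℝ) :
    scFw a h ψ x = - Real.log (scHeat (a * h / (a + h)) (fun y => Real.exp (-ψ y)) (a * x / (a + h))) := by
  unfold scFw
  rw [mul_div_right_comm a x]

theorem sc_fw_exp {ψ : ℝ → ℝ} (hψ : ScB 1 ψ) (a h x : ℝ) :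
    Real.exp (- scFw a h ψ x) = scHeat (a * h / (a + h)) (fun y => Real.exp (-ψ y)) (a * x / (a + h)) := by
  have h1 := sc_exp_step hψ (-1) (a * h / (a + h)) (a / (a + h) * x)
  simp only [sc_fw_step]
  rw [← neg_one_mul, h1]
  unfold scW
  have e : (fun y => Real.exp (-1 * ψ y)) = fun y => Real.exp (-ψ y) := by
    funext y; rw [neg_one_mul]
  rw [e, mul_div_right_comm a x]

/-- no time elapsed -/
theorem sc_fw_zero {a : ℝ} (ha : a ≠ 0) (ψ : ℝ → ℝ) : scFw a 0 ψ = ψ := by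
  funext x
  simp only [sc_fw_step]
  rw [mul_zero, zero_div, add_zero, div_self ha, one_mul, sc_step_var_zero]

/-- the first step (start at the time `0`): a constant -/
theorem sc_fw_first (h : ℝ) (ψ : ℝ → ℝ) : scFw 0 h ψ = fun _ => ψ 0 := by
  funext x
  simp only [sc_fw_step]
  rw [zero_mul, zero_div, zero_mul, sc_step_var_zero]

theorem sc_fw_B {n : ℕ} {ψ : ℝ → ℝ} (hψ : ScB (n + 1) ψ) (a h : ℝ) : ScB (n + 1) (scFw a h ψ) := by
  rw [sc_fw_step']
  exact fsw_B_comp_mul (sc_step_B hψ (-1) (a * h / (a + h))) (a / (a + h))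

theorem sc_fw_iter {n : ℕ} {ψ : ℝ → ℝ} (hψ : ScB (n + 1) ψ) (a h : ℝ) (k : ℕ) (hk : k ≤ n + 1) (x : ℝ) :
    deriv^[k] (scFw a h ψ) x = (a / (a + h)) ^ k * deriv^[k] (scStep (-1) (a * h / (a + h)) ψ) (a / (a + h) * x) := by
  rw [sc_fw_step']
  exact congrFun (fsw_iter_comp_mul ((sc_step_B hψ (-1) (a * h / (a + h))).mono hk) (a / (a + h))) x

theorem sc_fw_lam_le {a h : ℝ} (ha : 0 ≤ a) (hh : 0 ≤ h) : |a / (a + h)| ≤ 1 := by
  rw [abs_of_nonneg (div_nonneg ha (by linarith))]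
  exact div_le_one_of_le₀ (by linarith) (by linarith)

theorem sc_fw_deriv_le {ψ : ℝ → ℝ} (hψ : ScB 1 ψ) {L : ℝ} (hL : ∀ z, |deriv ψ z| ≤ L) {a h : ℝ} (ha : 0 ≤ a) (hh : 0 ≤ h) (x : ℝ) :
    |deriv (scFw a h ψ) x| ≤ L := by
  have h1 := sc_fw_iter hψ a h 1 le_rfl x
  simp only [Function.iterate_one, pow_one] at h1
  rw [h1, abs_mul]
  have h2 := sc_step_deriv_le hψ hL (-1) (a * h / (a + h)) (a / (a + h) * x)
  have h3 := sc_fw_lam_le ha hh
  have hL0 : 0 ≤ L := (abs_nonneg _).trans (hL 0)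
  calc |a / (a + h)| * |deriv (scStep (-1) (a * h / (a + h)) ψ) (a / (a + h) * x)| ≤ 1 * L :=
        mul_le_mul h3 h2 (abs_nonneg _) zero_le_one
    _ = L := one_mul L

theorem sc_fw_even {ψ : ℝ → ℝ} (h : ∀ z, ψ (-z) = ψ z) (a h' x : ℝ) : scFw a h' ψ (-x) = scFw a h' ψ x := by
  simp only [sc_fw_step]
  rw [mul_neg]
  exact sc_step_even h _ _ _

/-- bounds of the derivatives, uniform in `a, h ≥ 0` with `a h/(a+h) ≤ S` (e.g. `S = a`) -/
theorem sc_fw_deriv_bdd {n : ℕ} {ψ : ℝ → ℝ} (hψ : ScB (n + 1) ψ) (S : ℝ) (k : ℕ) (hk1 : 1 ≤ k) (hk : k ≤ n + 1) :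
    ∃ C : ℝ, ∀ a h : ℝ, 0 ≤ a → 0 ≤ h → a ≤ S → ∀ x, |deriv^[k] (scFw a h ψ) x| ≤ C := by
  obtain ⟨C, hC⟩ := sc_step_deriv_bdd hψ (-1) S k hk1 hk
  refine ⟨C, fun a h ha hh haS x => ?_⟩
  rw [sc_fw_iter hψ a h k hk x, abs_mul, abs_pow]
  have hv : a * h / (a + h) ∈ Icc 0 S := by
    refine ⟨div_nonneg (mul_nonneg ha hh) (by linarith), ?_⟩
    rcases eq_or_lt_of_le (add_nonneg ha hh) with h0 | h0
    · rw [← h0, div_zero]; linarith
    · rw [div_le_iff₀ h0]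
      nlinarith
  have h2 := hC _ hv (a / (a + h) * x)
  have h3 : |a / (a + h)| ^ k ≤ 1 := pow_le_one₀ (abs_nonneg _) (sc_fw_lam_le ha hh)
  calc |a / (a + h)| ^ k * |deriv^[k] (scStep (-1) (a * h / (a + h)) ψ) (a / (a + h) * x)| ≤ 1 * C :=
        mul_le_mul h3 h2 (abs_nonneg _) zero_le_one
    _ = C := one_mul C

/-- the running form: variance `a - a²/t`, scaling `a/t` -/
theorem sc_fw_run {a t : ℝ} (ht : t ≠ 0) (ψ : ℝ → ℝ) (x : ℝ) :
    scFw a (t - a) ψ x = scStep (-1) (a - a ^ 2 / t) ψ (a / t * x) := by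
  simp only [sc_fw_step]
  have e1 : a + (t - a) = t := by ring
  have e2 : a * (t - a) / t = a - a ^ 2 / t := by field_simp
  rw [e1, e2]

/-- joint regularity on `[t₀, t₁]`, `0 < a ≤ t₀` (up to `h = 0` if `t₀ = a`) -/
theorem sc_fw_T {n : ℕ} {ψ : ℝ → ℝ} (hψ : ScB (n + 1) ψ) {a t₀ : ℝ} (ha : 0 < a) (h0 : a ≤ t₀) (t₁ : ℝ) :
    ScT (Icc t₀ t₁) (n + 1) (fun t => scFw a (t - a) ψ) := by
  have h1 : ScT (Icc 0 a) (n + 1) (fun r => scStep (-1) (a - r) ψ) := sc_step_T hψ (-1) 0 a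
  have hpos : ∀ t ∈ Icc t₀ t₁, 0 < t := fun t ht => lt_of_lt_of_le ha (h0.trans ht.1)
  have h2 := fsw_T_reparam h1 (I := Icc t₀ t₁) (θ := fun t => a ^ 2 / t) (lam := fun t => a / t) (Λ := 1)
    (continuousOn_const.div continuousOn_id fun t ht => (hpos t ht).ne')
    (fun t ht => by
      have := hpos t ht
      refine ⟨by positivity, ?_⟩
      rw [div_le_iff₀ this]
      nlinarith [h0.trans ht.1])
    (continuousOn_const.div continuousOn_id fun t ht => (hpos t ht).ne')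
    (fun t ht => by
      have := hpos t ht
      rw [abs_of_pos (by positivity), div_le_one this]
      exact h0.trans ht.1)
  refine h2.congr' fun t ht => ?_
  funext x
  exact sc_fw_run (hpos t ht).ne' ψ x

theorem fsw_B_iter {n : ℕ} (j : ℕ) {f : ℝ → ℝ} (hf : ScB (n + j) f) : ScB n (deriv^[j] f) := by
  induction j generalizing f with
  | zero => exact hf
  | succ j ih =>
    rw [Function.iterate_succ_apply]
    exact ih hf.2.2

theorem fsw_B_jet {n : ℕ} {f : ℝ → ℝ} (hf : ScB (n + 1) f) (j : ℕ) (hj : j ≤ n) (x : ℝ) :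
    HasDerivAt (deriv^[j] f) (deriv^[j + 1] f x) x := by
  have h1 : ScB (1 + j) f := hf.mono (by omega)
  have h2 := fsw_B_iter j h1
  rw [Function.iterate_succ_apply']
  exact (h2.1 x).hasDerivAt

theorem sc_fw_jet {n : ℕ} {ψ : ℝ → ℝ} (hψ : ScB (n + 1) ψ) (a h : ℝ) (j : ℕ) (hj : j ≤ n) (x : ℝ) :
    HasDerivAt (deriv^[j] (scFw a h ψ)) (deriv^[j + 1] (scFw a h ψ) x) x :=
  fsw_B_jet (sc_fw_B hψ a h) j hj x

theorem sc_fw_run_iter {n : ℕ} {ψ : ℝ → ℝ} (hψ : ScB (n + 1) ψ) {a t : ℝ} (ht : t ≠ 0) (k : ℕ) (hk : k ≤ n + 1) (x : ℝ) :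
    deriv^[k] (scFw a (t - a) ψ) x = (a / t) ^ k * deriv^[k] (scStep (-1) (a - a ^ 2 / t) ψ) (a / t * x) := by
  have e : scFw a (t - a) ψ = fun x => scStep (-1) (a - a ^ 2 / t) ψ (a / t * x) := funext fun x => sc_fw_run ht ψ x
  rw [e]
  exact congrFun (fsw_iter_comp_mul ((sc_step_B hψ (-1) (a - a ^ 2 / t)).mono hk) (a / t)) x

/-- **the PDE of `ψ`**: `ψ_t = (ψ'' - ψ'²)/2 - (x/t) ψ'` -/
theorem sc_fw_pde {ψ : ℝ → ℝ} (hψ : ScB 2 ψ) {a t : ℝ} (ha : 0 < a) (ht : a < t) (x : ℝ) :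
    HasDerivAt (fun t => scFw a (t - a) ψ x)
      ((deriv (deriv (scFw a (t - a) ψ)) x - deriv (scFw a (t - a) ψ) x ^ 2) / 2
        - x / t * deriv (scFw a (t - a) ψ) x) t := by
  have ht0 : 0 < t := ha.trans ht
  have hτ : 0 < a - a ^ 2 / t := by
    rw [sub_pos, div_lt_iff₀ ht0]
    nlinarith
  have hU : Ioi (0 : ℝ) ×ˢ (univ : Set ℝ) ∈ 𝓝 ((a - a ^ 2 / t, a / t * x) : ℝ × ℝ) :=
    prod_mem_nhds (Ioi_mem_nhds hτ) univ_mem
  have c1 : ContinuousAt (fun p : ℝ × ℝ => deriv (scStep (-1) p.1 ψ) p.2) (a - a ^ 2 / t, a / t * x) :=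
    fsw_step_contAt hψ (-1) 1 (by omega) hτ _
  have c2 : ContinuousAt (fun p : ℝ × ℝ => deriv (deriv (scStep (-1) p.1 ψ)) p.2) (a - a ^ 2 / t, a / t * x) :=
    fsw_step_contAt hψ (-1) 2 (by omega) hτ _
  have hα : HasDerivAt (fun t : ℝ => a - a ^ 2 / t) (a ^ 2 / t ^ 2) t := by
    have := ((hasDerivAt_id t).inv ht0.ne').const_mul (a ^ 2)
    have h2 := this.const_sub a
    refine (h2.congr_deriv ?_).congr_of_eventuallyEq (Eventually.of_forall fun s => ?_)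
    · simp
      ring
    · simp [div_eq_mul_inv]
  have hβ : HasDerivAt (fun t : ℝ => a / t * x) (-(a / t ^ 2) * x) t := by
    have := (((hasDerivAt_id t).inv ht0.ne').const_mul a).mul_const x
    refine (this.congr_deriv ?_).congr_of_eventuallyEq (Eventually.of_forall fun s => ?_)
    · simp
      ring
    · simp [div_eq_mul_inv]
  have h := fsw_chain2 (F := fun τ y => scStep (-1) τ ψ y)
    (A := fun τ y => (deriv (deriv (scStep (-1) τ ψ)) y + (-1) * deriv (scStep (-1) τ ψ) y ^ 2) / 2)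
    (B := fun τ y => deriv (scStep (-1) τ ψ) y) (a := a - a ^ 2 / t) (b := a / t * x)
    (by
      filter_upwards [hU] with v hv
      exact fsw_step_var hψ (-1) hv.1 v.2)
    (Eventually.of_forall fun v => ((sc_step_B (n := 1) hψ (-1) v.1).1 v.2).hasDerivAt)
    ((c2.add ((c1.pow 2).const_mul (-1))).div_const 2) c1 hα hβ rfl rfl
  have h' := h.congr_of_eventuallyEq (f₁ := fun t => scFw a (t - a) ψ x) (by
    filter_upwards [Ioi_mem_nhds ht0] with s hs
    exact sc_fw_run (ne_of_gt hs) ψ x)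
  refine h'.congr_deriv ?_
  have e1 := sc_fw_run_iter hψ (a := a) ht0.ne' 1 (by omega) x
  have e2 := sc_fw_run_iter hψ (a := a) ht0.ne' 2 (by omega) x
  simp only [Function.iterate_succ, Function.iterate_zero, Function.comp, id] at e1 e2
  rw [e1, e2]
  field_simp
  ring

/-- the right side of the PDE is of class `ScT` -/
theorem sc_fw_rhs_T (k : ℕ) {ψ : ℝ → ℝ} (hψ : ScB (k + 3) ψ) {a t₀ : ℝ} (ha : 0 < a) (h0 : a ≤ t₀) (t₁ : ℝ) :
    ScT (Icc t₀ t₁) (k + 1) (fun t y => (deriv (deriv (scFw a (t - a) ψ)) y - deriv (scFw a (t - a) ψ) y ^ 2) / 2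
        - y / t * deriv (scFw a (t - a) ψ) y) := by
  have hT : ScT (Icc t₀ t₁) (k + 3) (fun t => scFw a (t - a) ψ) := sc_fw_T (n := k + 2) hψ ha h0 t₁
  have hD1 : ScT (Icc t₀ t₁) (k + 2) (fun t => deriv (scFw a (t - a) ψ)) := hT.2.2.2
  have hD2 : ScT (Icc t₀ t₁) (k + 1) (fun t => deriv (deriv (scFw a (t - a) ψ))) := hD1.2.2.2
  have hpos : ∀ t ∈ Icc t₀ t₁, 0 < t := fun t ht => lt_of_lt_of_le ha (h0.trans ht.1)
  have hinv : ScT (Icc t₀ t₁) (k + 1) (fun t _ => t⁻¹) :=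
    ScT.of_time (a := fun t => t⁻¹) (continuousOn_id.inv₀ fun t ht => (hpos t ht).ne') ⟨a⁻¹, fun t ht => by
      rw [abs_of_pos (inv_pos.2 (hpos t ht))]
      exact inv_anti₀ ha (h0.trans ht.1)⟩ (k + 1)
  have hid : ScT (Icc t₀ t₁) (k + 1) (fun _ y => y) := (ScE.id (k + 1)).scT _
  have h := ((hD2.sub (hD1.of_succ.pow 2)).const_mul (1 / 2)).sub ((hinv.mul hid).mul hD1.of_succ)
  refine h.congr' fun t _ => ?_
  funext y
  ring

/-- **the PDE of `ψ` differentiated `k` times in `x`** -/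
theorem sc_fw_pde_iter (k : ℕ) {ψ : ℝ → ℝ} (hψ : ScB (k + 3) ψ) {a t : ℝ} (ha : 0 < a) (ht : a < t) (x : ℝ) :
    HasDerivAt (fun t => deriv^[k] (scFw a (t - a) ψ) x)
      (deriv^[k] (fun y => (deriv (deriv (scFw a (t - a) ψ)) y - deriv (scFw a (t - a) ψ) y ^ 2) / 2
        - y / t * deriv (scFw a (t - a) ψ) y) x) t := by
  have hT : ScT (Icc a (t + 1)) (k + 3) (fun t => scFw a (t - a) ψ) := sc_fw_T (n := k + 2) hψ ha le_rfl (t + 1)
  exact sc_stepD_comm_iter k (hT.mono (by omega)) (sc_fw_rhs_T k hψ ha le_rfl (t + 1)).of_succ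
    (fun s hs y => sc_fw_pde (hψ.mono (by omega)) ha hs.1 y) t ⟨ht, by linarith⟩ x

/-- derivatives of the right side for an abstract jet -/
theorem fsw_rhs_jet {P : ℕ → ℝ → ℝ} (hP : ∀ j ≤ 4, ∀ y, HasDerivAt (P j) (P (j + 1) y) y) (t : ℝ) :
    (∀ y, HasDerivAt (fun y => (P 2 y - P 1 y ^ 2) / 2 - y / t * P 1 y)
      (P 3 y / 2 - P 1 y * P 2 y - P 1 y / t - y / t * P 2 y) y) ∧
    (∀ y, HasDerivAt (fun y => P 3 y / 2 - P 1 y * P 2 y - P 1 y / t - y / t * P 2 y)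
      (P 4 y / 2 - P 2 y ^ 2 - P 1 y * P 3 y - 2 * P 2 y / t - y / t * P 3 y) y) ∧
    (∀ y, HasDerivAt (fun y => P 4 y / 2 - P 2 y ^ 2 - P 1 y * P 3 y - 2 * P 2 y / t - y / t * P 3 y)
      (P 5 y / 2 - 3 * P 2 y * P 3 y - P 1 y * P 4 y - 3 * P 3 y / t - y / t * P 4 y) y) := by
  have h1 := hP 1 (by omega)
  have h2 := hP 2 (by omega)
  have h3 := hP 3 (by omega)
  have h4 := hP 4 (by omega)
  have hy : ∀ y : ℝ, HasDerivAt (fun y : ℝ => y / t) (1 / t) y := fun y => (hasDerivAt_id y).div_const t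
  refine ⟨fun y => ?_, fun y => ?_, fun y => ?_⟩
  · refine ((((h2 y).sub ((h1 y).pow 2)).div_const 2).sub ((hy y).mul (h1 y))).congr_deriv ?_
    simp
    ring
  · refine (((((h3 y).div_const 2).sub ((h1 y).mul (h2 y))).sub ((h1 y).div_const t)).sub ((hy y).mul (h2 y))).congr_deriv ?_
    ring
  · refine ((((((h4 y).div_const 2).sub ((h2 y).pow 2)).sub ((h1 y).mul (h3 y))).sub
      (((h2 y).const_mul 2).div_const t)).sub ((hy y).mul (h3 y))).congr_deriv ?_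
    simp
    ring

/-- `∂_t ψ' = ψ'''/2 - ψ' ψ'' - ψ'/t - (x/t) ψ''` -/
theorem sc_fw_pde1 {ψ : ℝ → ℝ} (hψ : ScB 5 ψ) {a t : ℝ} (ha : 0 < a) (ht : a < t) (x : ℝ) :
    HasDerivAt (fun t => deriv^[1] (scFw a (t - a) ψ) x)
      (deriv^[3] (scFw a (t - a) ψ) x / 2 - deriv^[1] (scFw a (t - a) ψ) x * deriv^[2] (scFw a (t - a) ψ) x
        - deriv^[1] (scFw a (t - a) ψ) x / t - x / t * deriv^[2] (scFw a (t - a) ψ) x) t := by
  have h := sc_fw_pde_iter 1 (hψ.mono (by omega)) ha ht x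
  have J := fsw_rhs_jet (P := fun j => deriv^[j] (scFw a (t - a) ψ)) (fun j hj y => sc_fw_jet hψ a (t - a) j hj y) t
  refine h.congr_deriv ?_
  exact (J.1 x).deriv

/-- `∂_t ψ'' = ψ''''/2 - ψ''² - ψ' ψ''' - 2 ψ''/t - (x/t) ψ'''` -/
theorem sc_fw_pde2 {ψ : ℝ → ℝ} (hψ : ScB 5 ψ) {a t : ℝ} (ha : 0 < a) (ht : a < t) (x : ℝ) :
    HasDerivAt (fun t => deriv^[2] (scFw a (t - a) ψ) x)
      (deriv^[4] (scFw a (t - a) ψ) x / 2 - deriv^[2] (scFw a (t - a) ψ) x ^ 2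
        - deriv^[1] (scFw a (t - a) ψ) x * deriv^[3] (scFw a (t - a) ψ) x
        - 2 * deriv^[2] (scFw a (t - a) ψ) x / t - x / t * deriv^[3] (scFw a (t - a) ψ) x) t := by
  have h := sc_fw_pde_iter 2 hψ ha ht x
  have J := fsw_rhs_jet (P := fun j => deriv^[j] (scFw a (t - a) ψ)) (fun j hj y => sc_fw_jet hψ a (t - a) j hj y) t
  refine h.congr_deriv ?_
  have e1 := funext fun y => (J.1 y).deriv
  change deriv (deriv _) x = _
  simp only [Function.iterate_succ, Function.iterate_zero, Function.comp, id] at e1 J ⊢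
  rw [e1]
  exact (J.2.1 x).deriv

/-- `∂_t ψ''' = ψ⁽⁵⁾/2 - 3 ψ'' ψ''' - ψ' ψ'''' - 3 ψ'''/t - (x/t) ψ''''` -/
theorem sc_fw_pde3 {ψ : ℝ → ℝ} (hψ : ScB 6 ψ) {a t : ℝ} (ha : 0 < a) (ht : a < t) (x : ℝ) :
    HasDerivAt (fun t => deriv^[3] (scFw a (t - a) ψ) x)
      (deriv^[5] (scFw a (t - a) ψ) x / 2 - 3 * deriv^[2] (scFw a (t - a) ψ) x * deriv^[3] (scFw a (t - a) ψ) x
        - deriv^[1] (scFw a (t - a) ψ) x * deriv^[4] (scFw a (t - a) ψ) x
        - 3 * deriv^[3] (scFw a (t - a) ψ) x / t - x / t * deriv^[4] (scFw a (t - a) ψ) x) t := by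
  have h := sc_fw_pde_iter 3 hψ ha ht x
  have J := fsw_rhs_jet (P := fun j => deriv^[j] (scFw a (t - a) ψ))
    (fun j hj y => sc_fw_jet (n := 5) hψ a (t - a) j (by omega) y) t
  refine h.congr_deriv ?_
  have e1 := funext fun y => (J.1 y).deriv
  have e2 := funext fun y => (J.2.1 y).deriv
  change deriv (deriv (deriv _)) x = _
  simp only [Function.iterate_succ, Function.iterate_zero, Function.comp, id] at e1 e2 J ⊢
  rw [e1, e2]
  exact (J.2.2 x).deriv

/-! ## scaling, refinement invariance, propagation of the representation of the law -/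

theorem fsw_heat_scale (f : ℝ → ℝ) {c : ℝ} (hc : 0 ≤ c) (s z : ℝ) :
    scHeat s (fun y => f (c * y)) z = scHeat (c ^ 2 * s) f (c * z) := by
  unfold scHeat
  rw [Real.sqrt_mul (sq_nonneg c), Real.sqrt_sq hc]
  refine integral_congr_ae (Eventually.of_forall fun g => ?_)
  simp only
  congr 1
  ring

theorem fsw_negexp_E0 {ψ : ℝ → ℝ} (hψ : ScB 1 ψ) : ScE 0 (fun y => Real.exp (-ψ y)) := by
  have h := sc_expF_E0 hψ (-1)
  have e : (fun y => Real.exp (-1 * ψ y)) = fun y => Real.exp (-ψ y) := by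
    funext y; rw [neg_one_mul]
  rwa [e] at h

/-- refinement invariance (splitting a step) -/
theorem sc_fw_fw {ψ : ℝ → ℝ} (hψ : ScB 1 ψ) {a h h' : ℝ} (ha : 0 ≤ a) (hh : 0 ≤ h) (hh' : 0 ≤ h') (hah : 0 < a + h) :
    scFw (a + h) h' (scFw a h ψ) = scFw a (h + h') ψ := by
  funext x
  have hB : ScB 1 (scFw a h ψ) := sc_fw_B hψ a h
  have e1 := sc_fw_exp hB (a + h) h' x
  have e2 := sc_fw_exp hψ a (h + h') x
  have e3 : (fun y => Real.exp (-scFw a h ψ y))
      = fun y => scHeat (a * h / (a + h)) (fun y => Real.exp (-ψ y)) (a / (a + h) * y) := by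
    funext y
    rw [sc_fw_exp hψ a h y, mul_div_right_comm a y]
  have hl : 0 ≤ a / (a + h) := div_nonneg ha hah.le
  have hpos : 0 < a + h + h' := by linarith
  rw [e3, fsw_heat_scale (scHeat (a * h / (a + h)) fun y => Real.exp (-ψ y)) hl,
    sc_heat_heat (fsw_negexp_E0 hψ) (by positivity) (by positivity)] at e1
  have v : (a / (a + h)) ^ 2 * ((a + h) * h' / (a + h + h')) + a * h / (a + h) = a * (h + h') / (a + (h + h')) := by
    have : a + (h + h') = a + h + h' := by ring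
    rw [this]
    field_simp
    ring
  have w : a / (a + h) * ((a + h) * x / (a + h + h')) = a * x / (a + (h + h')) := by
    have : a + (h + h') = a + h + h' := by ring
    rw [this]
    field_simp
  rw [v, w, ← e2] at e1
  have := Real.exp_injective e1
  linarith

/-- **propagation of the law over a step.**  If `E φ(Z_a) = scHeat a (φ e^{m V(a) - ψ}) 0` (`ψ` = post-jump value, `V(a) = scStep m h F`,
`F = V(a+h)`), then `E φ(Z_{a+h}) = E (scTr m h F φ)(Z_a) = scHeat (a+h) (φ e^{m F - scFw a h ψ}) 0`. -/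
theorem sc_fw_tr {F ψ φ : ℝ → ℝ} (hF : ScB 1 F) (hψ : ScB 1 ψ) (hφ : ScE 0 φ) (m : ℝ) {a h : ℝ} (ha : 0 ≤ a) (hh : 0 ≤ h)
    (hah : 0 < a + h) :
    scHeat a (fun x => scTr m h F φ x * Real.exp (m * scStep m h F x - ψ x)) 0
      = scHeat (a + h) (fun s => φ s * Real.exp (m * F s - scFw a h ψ s)) 0 := by
  have e1 : (fun x => scTr m h F φ x * Real.exp (m * scStep m h F x - ψ x))
      = fun x => scHeat h (fun y => φ y * Real.exp (m * F y)) x * Real.exp (-ψ x) := by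
    funext x
    have hW := sc_W_pos hF m h x
    rw [sub_eq_add_neg, Real.exp_add, sc_exp_step hF m h x]
    unfold scTr
    field_simp
  have e2 : (fun s => φ s * Real.exp (m * F s - scFw a h ψ s))
      = fun s => φ s * Real.exp (m * F s) * scHeat (a * h / (a + h)) (fun y => Real.exp (-ψ y)) (a * s / (a + h)) := by
    funext s
    rw [sub_eq_add_neg, Real.exp_add, sc_fw_exp hψ a h s]
    ring
  rw [e1, e2]
  exact fsb_bridge0 (sc_mulexpF_E0 hF hφ m) (fsw_negexp_E0 hψ) ha hh hah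

end Claimed.Agent.R286
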